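import Vale.Agent.P287D.St

/-!
# P283B, block GA: ACC and global ACC near one for generalised pairs (statements)

A generalised pair is given by `Γ` (the crepant pull back of `K + B`, so that the log discrepancy
at `P` is `dsc Γ P + 1`) and a nef `M` with `p • M` integral Cartier; `K + B + M` is `Γ + M`.
-/

set_option linter.unusedVariables false

open Set
open Vale.Agent.P287D

noncomputable section

namespace Vale.Agent.P283B.Ga

/-- sets of log discrepancies whose denominators are bounded away from zero -/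
def Den (I : Set ℝ) : Prop :=
  ∀ d : ℝ, 0 < d → ∃ q : ℕ, 0 < q ∧ ∀ a ∈ I, d ≤ a → ∃ z : ℤ, (q : ℝ) * a = z

/-- the admissible log discrepancies of prime divisors of the model -/
def Co (I : Set ℝ) (δ a : ℝ) : Prop := a ≤ 1 ∧ (a = 1 ∨ a ∈ I ∨ a ≤ δ)

section defs

variable {K : Type} [Field K] [Algebra ℂ K]

/-- numerically trivial over `V B` -/
def NumO (B β : BD K) : Prop := ∃ c : ℝ, Nef (c • B + β) ∧ Nef (c • B - β)

/-- `V (-G)` is an `ε`-lc Fano variety with the canonical divisor `G` -/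
structure Fa (n : ℕ) (ε : ℝ) (G : BD K) : Prop where
  smp : Smp (-G)
  big : Big (-G)
  on : ∀ P, On n (-G) P → dsc (n + 1) G P = 0
  lc : ∀ P, ε ≤ dsc (n + 1) G P + 1

end defs

/-- **WV**: on `ε`-lc Fano varieties of dimension `n + 1` the anticanonical volume is bounded above
and the volume of ample integral Weil divisors is bounded below -/
def WV (n : ℕ) : Prop := ∀ ε : ℝ, 0 < ε → ∃ v V : ℝ, 0 < v ∧
  ∀ (K : Type) [Field K] [Algebra ℂ K], FF K (n + 1) → ∀ G : BD K, Fa n ε G →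
    vol (n + 1) (-G) ≤ V ∧
    ∀ β, AmpOn (-G) β → (∀ P, On n (-G) P → ∃ z : ℤ, β P = z) → v ≤ vol (n + 1) β

/-- global ACC in dimension `n + 1` with the constant `δ` -/
def GA0 (n p : ℕ) (I : Set ℝ) (δ : ℝ) : Prop :=
  ∀ (K : Type) [Field K] [Algebra ℂ K], FF K (n + 1) → ∀ Λ Γ M : BD K, Smp Λ → Big Λ → Nef M →
    (p : ℝ) • M ∈ CarZ K → Num (Γ + M) → Lc (n + 1) Γ →
    (∀ P, On n Λ P → Co I δ (dsc (n + 1) Γ P + 1)) →
    ∀ P, dsc (n + 1) Γ P = -1 ∨ δ < dsc (n + 1) Γ P + 1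

/-- global ACC on the generic fibre, of dimension at most `N`, of `V Λ → V B` -/
def GAR (N p : ℕ) (I : Set ℝ) (δ : ℝ) : Prop :=
  ForS fun n K _ _ => ∀ Λ B Γ M : BD K, Smp Λ → Big Λ → Smp B → Dsc Λ B → n + 1 ≤ N + dim B →
    Nef M → (p : ℝ) • M ∈ CarZ K → NumO B (Γ + M) →
    (∀ P, Hor (fld B) P → -1 ≤ dsc (n + 1) Γ P) →
    (∀ P, Hor (fld B) P → On n Λ P → Co I δ (dsc (n + 1) Γ P + 1)) →
    ∀ P, Hor (fld B) P → dsc (n + 1) Γ P = -1 ∨ δ < dsc (n + 1) Γ P + 1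

/-- ACC in dimension `n + 1`, on a set `S` of places which is closed under generalisation: the
coefficients in `[1 - δ, 1]` can be raised to one; `Γ₀` is a klt generalised pair -/
def AC0 (n p : ℕ) (I : Set ℝ) (δ : ℝ) : Prop :=
  ∀ (K : Type) [Field K] [Algebra ℂ K], FF K (n + 1) → ∀ (Λ Γ M Γ₀ G : BD K) (c : ℝ)
    (S : Set (Pl K)), Smp Λ → Big Λ → (∀ Q ∈ S, ∀ P, CLe Λ Q P → P ∈ S) → Nef M →
    (p : ℝ) • M ∈ CarZ K → Dsc Λ (Γ + M) → Bdy n Λ Γ → Nef (c • Λ - Γ₀) → Bdy n Λ Γ₀ →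
    (∀ Q ∈ S, -1 < dsc (n + 1) Γ₀ Q) → (∀ Q ∈ S, -1 ≤ dsc (n + 1) Γ Q) →
    (∀ P ∈ S, On n Λ P → Co I δ (dsc (n + 1) Γ P + 1)) → Dsc Λ G → 0 ≤ G →
    (∀ P ∈ S, On n Λ P → G P ≤ dsc (n + 1) Γ P + 1 ∧ (0 < G P → dsc (n + 1) Γ P + 1 ≤ δ)) →
    ∀ Q ∈ S, -1 ≤ dsc (n + 1) (Γ + G) Q

/-- **GAF**: global ACC for fibres of dimension at most `N` -/
def GAF (N : ℕ) : Prop := ∀ (p : ℕ) (I : Set ℝ), 0 < p → Den I → ∃ δ : ℝ, 0 < δ ∧ GAR N p I δ

/-- **ACC** in dimension at most `N + 1` -/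
def ACC (N : ℕ) : Prop :=
  ∀ (p : ℕ) (I : Set ℝ), 0 < p → Den I → ∃ δ : ℝ, 0 < δ ∧ ∀ n ≤ N, AC0 n p I δ

end Vale.Agent.P283B.Ga
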