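import Vale.Agent.P283B.GaAr
import Vale.Agent.P287D.Api.Int
import Vale.Agent.P287D.Mm.Run
import Vale.Agent.P287D.Mm.Mft
import Vale.Agent.P287D.Va.Nd
import Vale.Agent.P287D.Va.Des
import Vale.Agent.P287D.Ad.Main

/-!
# P283B, block GA: ACC and global ACC near one from the volume bounds
-/

set_option linter.unusedVariables false

open Set
open Vale.Agent.P287D

noncomputable section

namespace Vale.Agent.P283B.Ga

section en

variable {K : Type} [Field K] [Algebra ℂ K] {n : ℕ} {Λ Ω L Γ M G β ν Z A : BD K} {c : ℝ}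
  {E P : Pl K}

theorem ex_small {ι : Type*} (T : Finset ι) (f g : ι → ℝ) {ε : ℝ} (e : 0 < ε) :
    ∃ η : ℝ, 0 < η ∧ η ≤ ε ∧ ∀ i ∈ T, 0 < g i → η * f i < g i := by
  have ev : ∀ᶠ η : ℝ in nhds 0, η < ε ∧ ∀ i ∈ T, 0 < g i → η * f i < g i := by
    refine .and (eventually_lt_nhds e) ((Filter.eventually_all_finset T).2 fun P _ => ?_)
    by_cases p : 0 < g P
    · exact ((by fun_prop : Continuous fun η : ℝ => η * f P).continuousAt.eventually_lt
        continuousAt_const (by simpa using p)).mono fun _ q _ => q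
    · exact .of_forall fun _ q => absurd q p
  obtain ⟨η, ⟨p, q⟩, r⟩ := ((ev.filter_mono nhdsWithin_le_nhds).and
    (self_mem_nhdsWithin (s := Ioi (0 : ℝ)))).exists
  exact ⟨η, r, p.le, q⟩

/-- the pseudo-effective cone contains no line -/
theorem no_psef (hK : FF K (n + 1)) (hΩ : Smp Ω) (o : On n Ω E) (hβ : β ∈ Car K) (h0 : 0 ≤ β)
    (e : 0 < β E) : ¬ Psef (-β) := fun q => by
  have a := Api.int.nn n K hK (-β) (fun _ => Ω) q (Ba.isB_car hK (neg_mem hβ)) fun _ => hΩ.nef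
  have b := term_le_I hK (Ba.isB_car hK hβ) h0 (b := fun _ => Ω) (fun _ => hΩ.nef) E
  have d : I (n + 1) K (Fin.cons (-β) fun _ => Ω) = -I (n + 1) K (Fin.cons β fun _ => Ω) := by
    simp [I, finsum_neg_distrib]
  have := mul_pos e o
  rw [vol] at this
  linarith

theorem not_big0 (hK : FF K (n + 1)) : ¬ Big (0 : BD K) := fun b => by
  have := (big_iff_dim hK Eff.zero).1 b
  rw [(prn_iff_dim hK Smp.zero).1 (zero_mem _)] at this
  omega

/-- exceptional divisors are fixed -/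
theorem fix_exc (hK : FF K (n + 1)) (hΛ : Smp Λ) (bΛ : Big Λ) (hν : Nef (-ν)) (hZ : Z ∈ Car K)
    (z : ∀ P, On n Λ P → Z P ≤ 0) (r : Rep (ν + Z + c • Λ) G) : Z ≤ G := by
  have cν : ν ∈ Car K := by simpa using neg_mem hν.car
  refine sub_nonpos.1 (neg'.neg n K hK Λ _ c hΛ bΛ (sub_mem hZ (r.car
    (add_mem (add_mem cν hZ) (Submodule.smul_mem _ _ hΛ.car)))) (hν.congr ?_) fun P hP => ?_)
  · rw [show Z - G + c • Λ - -ν = -(G - (ν + Z + c • Λ)) by module]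
    exact neg_mem r.2
  · have := r.1 P
    have := z P hP
    simp only [Pi.sub_apply, Pi.zero_apply] at *
    linarith

theorem amp_add_nef {s : Finset K} (hs : ∀ A, Dsc A (mx s) → Smp (M + A)) (d : Dsc Ω (mx s))
    (dM : Dsc Ω M) (hA : AmpOn Ω A) : AmpOn Ω (A + M) := by
  have a := hA.smul one_half_pos
  have := a.add_smp (hs _ (a.dsc'.trans d)) (dM.add a.1)
  rwa [show (1 / 2 : ℝ) • A + (M + (1 / 2 : ℝ) • A) = A + M by module] at this

/-- log smooth generalised pairs -/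
theorem pre_ls {κ : BD K} {T : Finset (Pl K)} {h : Pl K → BD K} (l : LS n Ω κ T h)
    {s : Finset K} (hs : ∀ A, Dsc A (mx s) → Smp (M + A)) (d : Dsc Ω (mx s)) (dM : Dsc Ω M)
    (u : Sup n Ω T (κ - Γ)) (k : ∀ P ∈ T, 0 ≤ dsc (n + 1) Γ P + 1 ∧ dsc (n + 1) Γ P ≤ 0) :
    Mm.Pre n Ω (Γ + M) := fun A hA => by
  obtain ⟨ε, e, a⟩ := hA.opn u.1.neg
  have t0 : 0 < min ε 1 := lt_min e one_pos
  have t1 := min_le_right ε 1
  have v : ∀ P, dsc (n + 1) (Γ + min ε 1 • (κ - Γ)) P =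
      (1 - min ε 1) * dsc (n + 1) Γ P + min ε 1 * dsc (n + 1) κ P := fun P => by
    simp only [dsc, Pi.sub_apply, Pi.add_apply, Pi.smul_apply, smul_eq_mul]
    ring
  refine ⟨Γ + min ε 1 • (κ - Γ), ?_, fun P => ?_, fun P hP => ?_, ?_⟩
  · have : Dsc Ω Γ := by simpa using l.term.hull.1.sub u.1
    exact this.add (u.1.smul _)
  · have x := l.ge u le_rfl zero_le_one (Q := P) fun P p _ => (k P p).1
    have y := l.dn P
    rw [v]
    nlinarith [mul_nonneg (sub_nonneg.2 t1) x, mul_nonneg t0.le y]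
  · rw [v, l.d0 hP, mul_zero, add_zero]
    refine mul_nonpos_of_nonneg_of_nonpos (sub_nonneg.2 t1) ?_
    by_cases p : P ∈ T
    · exact (k P p).2
    · have x := u.2 P hP p
      have y := l.d0 hP
      simp only [dsc, Pi.sub_apply] at x y ⊢
      linarith
  · have := amp_add_nef hs d dM (a _ ((abs_of_pos t0).trans_le (min_le_left ε 1)))
    rwa [show A + min ε 1 • -(κ - Γ) + M = Γ + M + A - (Γ + min ε 1 • (κ - Γ)) by module] at this

/-- a model with the hulls which are needed for the adjunction -/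
structure Mo (n : ℕ) (L Γ M κ M' : BD K) (U : Finset (Pl K)) (h : Pl K → BD K) : Prop where
  smp : Smp L
  big : Big L
  hh : ∀ R ∈ U, Hull n L R.δ (h R)
  hk : Hull n L (cn K (n + 1)) κ
  hm : Hull n L M M'
  des : Dsc L (Γ + M)
  out : ∀ P, On n L P → P ∉ U → dsc (n + 1) Γ P = 0

/-- the end of the program for `K + B + M - G` -/
structure En (n : ℕ) (Λ Γ M : BD K) (X : Finset (Pl K)) (L B κ M' G : BD K) (U : Finset (Pl K))
    (h : Pl K → BD K) : Prop where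
  mo : Mo n L Γ M κ M' U h
  sub : X ⊆ U
  eq : G = ∑ P ∈ X, (dsc (n + 1) Γ P + 1) • h P
  smp : Smp B
  des : Dsc L B
  nb : ¬ Big B
  amp : ∃ m : ℝ, AmpOn L (m • B + (G - (Γ + M)))
  on : ∀ P, On n L P → P ∈ X ∨ On n Λ P ∨ dsc (n + 1) Γ P = -1 ∨ dsc (n + 1) Γ P = 0
  lt : ∀ P ∈ X, ¬ On n L P → dsc (n + 1) Γ P + 1 < G P
  klt : ∃ Γ₀, Nef ((1 : ℝ) • L - Γ₀) ∧ Bdy n L Γ₀ ∧ Klt (n + 1) Γ₀
  rk : ∀ β, (β = Γ + M ∨ β = κ ∨ ∃ R ∈ U, β = h R) → ∃ c : ℝ, Dsc B (β - c • (G - (Γ + M)))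

theorem exists_en (hK : FF K (n + 1)) (hΛ : Smp Λ) (bΛ : Big Λ) (hM : Nef M) (hν : Num (Γ + M))
    (lc : Lc (n + 1) Γ) (bd : Bdy n Λ Γ) (X : Finset (Pl K))
    (hX : ∀ P ∈ X, dsc (n + 1) Γ P + 1 ≤ 1 / 2) (hE : E ∈ X) (e0 : -1 < dsc (n + 1) Γ E) :
    ∃ L B κ M' G U h, En n Λ Γ M X L B κ M' G U h := by
  classical
  obtain ⟨s', hs'⟩ := hM.exists_mx
  have cΓ : Γ ∈ Car K := by simpa using sub_mem hν.car hM.car
  obtain ⟨s, κ, T, h, l, hT, sκ, sB⟩ := exists_ls hK X.finite_toSet (toFinite {Γ, M, Λ, mx s'}) (by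
    rintro β (rfl | rfl | rfl | rfl)
    exacts [cΓ, hM.car, hΛ.car, mx_mem_Car _])
  have sΓ := sB Γ (by simp)
  have dM := (sB M (by simp)).1
  have dΛ := (sB Λ (by simp)).1
  have XT : X ⊆ T := fun P p => hT P p
  obtain ⟨a, ha⟩ : ∃ a : Pl K → ℝ, ∀ P, a P = dsc (n + 1) Γ P + 1 := ⟨_, fun _ => rfl⟩
  have a0 : ∀ P, 0 ≤ a P := fun P => by linarith [ha P, lc P]
  have hz : ∀ P, ∃ z : ℝ, (P ∈ X ∨ On n Λ P ∨ a P = 0 → z = 0) ∧
      (¬ (P ∈ X ∨ On n Λ P ∨ a P = 0) → 0 < z ∧ z < a P ∧ a P - 1 ≤ z) := fun P => by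
    by_cases p : P ∈ X ∨ On n Λ P ∨ a P = 0
    · exact ⟨0, fun _ => rfl, fun q => absurd p q⟩
    · have b : 0 < a P := (a0 P).lt_of_ne fun q => p (.inr (.inr q.symm))
      obtain ⟨z, z1, z2⟩ := exists_between (max_lt b (sub_one_lt (a P)))
      exact ⟨z, fun q => absurd q p, fun _ =>
        ⟨(le_max_left _ _).trans_lt z1, z2, ((le_max_right _ _).trans_lt z1).le⟩⟩
  choose z z1 z2 using hz
  obtain ⟨Zp, hZp⟩ : ∃ Z, Z = ∑ P ∈ T, z P • h P := ⟨_, rfl⟩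
  obtain ⟨Zm, hZm⟩ : ∃ Z, Z = ∑ P ∈ X, a P • h P := ⟨_, rfl⟩
  obtain ⟨p1, p2⟩ := hZp ▸ l.hull_sum z
  obtain ⟨m1, m2⟩ := hZm ▸ (l.mono XT).hull_sum a
  have m0 : 0 ≤ Zm := l.hart _ m1 fun P hP => by
    rw [m2 P hP]
    split_ifs
    exacts [a0 P, le_rfl]
  have pΛ : ∀ P, On n Λ P → Zp P ≤ 0 := fun P hP => by
    rw [p2 P (Mm.on_mono res' hK hΛ dΛ hP)]
    split_ifs
    exacts [(z1 P (.inr (.inl hP))).le, le_rfl]
  have pre : Mm.Pre n (mx s) (Γ + Zp - Zm + M) := by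
    refine pre_ls l hs' (sB _ (by simp)).1 dM (sκ.sub ((sΓ.add ⟨p1, fun P o q => ?_⟩).sub
      ⟨m1, fun P o q => ?_⟩)) fun P p => ?_
    · rw [p2 P o, if_neg q]
    · rw [m2 P o, if_neg fun w => q (XT w)]
    · have v : dsc (n + 1) (Γ + Zp - Zm) P + 1 = a P - z P + Zm P := by
        have := p2 P (l.on P p)
        rw [if_pos p] at this
        simp only [ha, dsc, Pi.sub_apply, Pi.add_apply, this]
        ring
      have w := m2 P (l.on P p)
      have w0 := a0 P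
      by_cases x : P ∈ X
      · rw [if_pos x] at w
        have := z1 P (.inl x)
        have := hX P x
        have := ha P
        constructor <;> linarith
      rw [if_neg x] at w
      by_cases y : P ∈ X ∨ On n Λ P ∨ a P = 0
      · have y1 := z1 P y
        have y2 : a P ≤ 1 := by
          rcases y with y | y | y
          exacts [absurd y x, by linarith [bd P y, ha P], by linarith]
        constructor <;> linarith
      · obtain ⟨-, y1, y2⟩ := z2 P y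
        constructor <;> linarith
  have oE := l.on E (XT hE)
  have aE : 0 < a E := by linarith [ha E]
  have np : ¬ Psef (Γ + Zp - Zm + M) := fun q => by
    refine no_psef hK l.smp oE (β := a E • h E) (Submodule.smul_mem _ _ (l.hull E oE).1.car)
      (smul_nonneg aE.le (l.nn oE)) (by simpa [(l.hull E oE).2 E oE, E.δ_self] using aE) ?_
    have : Psef (Γ + M - a E • h E) := .of_eff hΛ.car fun ε e => by
      obtain ⟨G, r⟩ := (psef_iff bΛ hΛ.car).1 q ε e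
      have r' : Rep (Γ + M + Zp + ε • Λ) (G + Zm) := (r.add (.refl m0)).congr
        (by rw [show _ - _ = (0 : BD K) by module]; exact zero_mem _)
      have k := fix_exc hK hΛ bΛ hν.2 p1.car pΛ r'
      have r2 : G + Zm - Zp - (Γ + M + ε • Λ) ∈ Prn K := by
        rw [show G + Zm - Zp - (Γ + M + ε • Λ) = G + Zm - (Γ + M + Zp + ε • Λ) by module]
        exact r'.2
      have k' := l.le_smul (((sΓ.1.add dM).add (dΛ.smul ε)).congr r2) (sub_nonneg.2 k) oE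
      have v : a E ≤ (G + Zm - Zp) E := by
        have := r.1 E
        simp only [Pi.sub_apply, Pi.add_apply, m2 E oE, p2 E oE, if_pos hE, if_pos (XT hE),
          z1 E (.inl hE), Pi.zero_apply] at this ⊢
        linarith
      refine ⟨G + Zm - Zp - a E • h E, sub_nonneg.2
        ((smul_le_smul_of_nonneg_right v (l.nn oE)).trans k'), ?_⟩
      rwa [show G + Zm - Zp - a E • h E - (Γ + M - a E • h E + ε • Λ) =
        G + Zm - Zp - (Γ + M + ε • Λ) by module]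
    exact (this.add hν.2.psef).mono (le_of_eq (by module))
  obtain ⟨ε, e, k⟩ := Mm.not_psef np l.smp l.big
  obtain ⟨b, b0, F, hF⟩ := bΛ.exists_eff l.smp.car
  obtain ⟨η, η0, η1, η2⟩ := ex_small T F z (div_pos e b0)
  obtain ⟨U, hU, sub⟩ := Mm.exists_sp l.smp l.big
    ((toFinite {Γ, M, Λ, κ, mx s}).union (T.finite_toSet.image h)) (by
      rintro β ((rfl | rfl | rfl | rfl | rfl) | ⟨P, p, rfl⟩)
      exacts [sΓ.1, dM, dΛ, sκ.1, .refl l.smp, (l.hull P (l.on P p)).1])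
  have uh : ∀ P ∈ T, h P ∈ U := fun P p => sub (.inr ⟨P, p, rfl⟩)
  have uM : M ∈ U := sub (by simp)
  have uΛ : Λ ∈ U := sub (by simp)
  have uκ : κ ∈ U := sub (by simp)
  have uν : Γ + M ∈ U := add_mem (sub (by simp)) uM
  have ux₀ : Γ + Zp - Zm + M ∈ U := add_mem (sub_mem (add_mem (sub (by simp))
    (hZp ▸ sum_mem fun P p => U.smul_mem _ (uh P p)))
    (hZm ▸ sum_mem fun P p => U.smul_mem _ (uh P (XT p)))) uM
  obtain ⟨A, uA, a1, a2, τ, d, x, Φ, t0, d0, hx, c, wl, nb, -⟩ := Mm.end' Api.ma n K hK (mx s) _ Λ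
    ((η * b / 2) • mx s) U ∅ (n + 2) hU ux₀ uΛ (U.smul_mem _ (sub (by simp))) (by simp)
    (l.smp.ampOn_smul (by positivity)) pre hΛ bΛ le_rfl
    (fun q => k (η * b) ((le_div_iff₀ b0).1 η1) (q.mono (le_of_eq (by simp; module))))
  obtain ⟨x₀, hx₀⟩ : ∃ y, y = Γ + Zp - Zm + M := ⟨_, rfl⟩
  rw [← hx₀] at c wl hx ux₀ pre
  rw [mx_empty, smul_zero, add_zero] at hx
  have aH : AmpOn (mx s) ((1 + d) • (A + τ • Λ)) :=
    (a1.add_smp (hΛ.smul t0.le) (dΛ.smul τ)).smul (by positivity)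
  have eD : x + d • (x - x₀) = x₀ + (1 + d) • (A + τ • Λ) := by rw [hx]; module
  have ux : x ∈ U := hx ▸ add_mem (add_mem ux₀ uA) (U.smul_mem _ uΛ)
  have sB : Smp (Φ x) := by simpa using wl.zd.smp
  have fν : Φ (Γ + M) = Γ + M := le_antisymm (by
    have := c.nef _ (neg_mem uν) hν.2
    rwa [map_neg, neg_le_neg_iff] at this) (c.nef _ uν hν.1)
  have hh := fun P (p : P ∈ T) => c.hull' (uh P p) (l.hull P (l.on P p))
  have con : ∀ P ∈ T, On n (Φ (x + d • (x - x₀))) P → P ∈ X ∨ On n Λ P ∨ a P = 0 := fun P p o => by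
    by_contra q
    obtain ⟨G, r, g⟩ := sB.exists_rep (finite_singleton P)
    obtain ⟨G', r', g'⟩ := a2.smp.exists_rep (finite_singleton P)
    have r1 : Rep x (G + (x - Φ x)) := by simpa using r.add (.refl wl.zd.nn)
    have u := fix_exc hK hΛ bΛ hν.2 p1.car pΛ (c := τ + η)
      ((((r1.add r').add (hF.smul η0.le)).add (.refl m0)).congr
        (by rw [show _ - _ = (0 : BD K) by rw [hx, hx₀]; module]; exact zero_mem _)) P
    have v := η2 P p (z2 P q).1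
    have w := (c.hull ux).2 P o
    simp only [Pi.sub_apply, Pi.add_apply, Pi.smul_apply, smul_eq_mul, g P rfl, g' P rfl, w,
      p2 P (l.on P p), m2 P (l.on P p), if_pos p, if_neg fun y => q (.inl y)] at u
    linarith
  have fp : Φ Zp = 0 := by
    rw [hZp, map_sum]
    refine Finset.sum_eq_zero fun P p => ?_
    by_cases q : P ∈ X ∨ On n Λ P ∨ a P = 0
    · rw [z1 P q, zero_smul, map_zero]
    · rw [map_smul, Mm.hull_eq neg' hK c.big (hh P p) ⟨.zero c.smp, fun Q o =>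
        (Pl.δ_ne fun y : Q = P => q (con P p (y ▸ o))).symm⟩, smul_zero]
  have fx : Φ x₀ = -(Φ Zm - (Γ + M)) := by
    rw [show x₀ = Γ + M + Zp - Zm by rw [hx₀]; module, map_sub, map_add, fp, fν]
    module
  refine ⟨_, Φ x, Φ κ, Φ M, Φ Zm, T, fun P => Φ (h P), ⟨c.smp, c.big, hh, c.hull' uκ l.term.hull,
    c.hull uM, fν ▸ c.des _ uν, fun P o q => ?_⟩, XT, ?_, sB, c.des x ux, nb, ⟨d⁻¹ + 1, ?_⟩,
    fun P o => ?_, fun P p o => ?_, ?_, fun β hβ => ?_⟩
  · have o' := ((c.on P).1 o).1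
    have v := l.d0 o'
    simp only [dsc, Pi.sub_apply, sκ.2 P o' q, sΓ.2 P o' q] at v ⊢
    exact v
  · simp only [hZm, map_sum, map_smul, ha]
  · have e : (d⁻¹ + 1) • Φ x + (Φ Zm - (Γ + M)) = d⁻¹ • Φ (x + d • (x - x₀)) := by
      rw [map_add, map_smul, map_sub, smul_add, smul_smul, inv_mul_cancel₀ d0.ne', fx]
      module
    rw [e]
    exact c.smp.ampOn_smul (inv_pos.2 d0)
  · by_cases p : P ∈ T
    · refine (con P p o).imp_right (Or.imp_right fun y => .inl ?_)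
      linarith [ha P]
    · have o' := ((c.on P).1 o).1
      have v := l.d0 o'
      simp only [dsc, Pi.sub_apply, sκ.2 P o' p, sΓ.2 P o' p] at v ⊢
      exact .inr (.inr (.inr v))
  · have o' := l.on P (XT p)
    have v := lt_of_le_of_ne (c.le P) fun y => o ((c.on P).2 ⟨o', y⟩)
    have w := c.pair_le ux₀ (c := 1) (by rw [eD]; simpa using aH.nef) P
    rw [fx] at w
    have y : x₀ P = (Γ + M) P - a P := by
      simp only [hx₀, Pi.sub_apply, Pi.add_apply, p2 P o', m2 P o', if_pos p, if_pos (XT p),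
        z1 P (.inl p)]
      ring
    simp only [one_smul, Pi.sub_apply, Pi.neg_apply, y] at w
    linarith [ha P]
  · obtain ⟨Γ₁, -, g1, g2, g3⟩ := pre _ aH
    rw [← eD] at g3
    refine ⟨Γ₁ - (x + d • (x - x₀) - Φ (x + d • (x - x₀))), ?_, fun P o => ?_, fun P => ?_⟩
    · rw [show (1 : ℝ) • Φ (x + d • (x - x₀)) - (Γ₁ - (x + d • (x - x₀) - Φ (x + d • (x - x₀)))) =
        x + d • (x - x₀) - Γ₁ by module]
      exact g3.nef
    · have v := g2 P ((c.on P).1 o).1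
      simp only [dsc, Pi.sub_apply, ((c.on P).1 o).2] at v ⊢
      linarith
    · have v := g1 P
      have w := c.le P
      simp only [dsc, Pi.sub_apply] at v ⊢
      linarith
  · have : ∀ γ ∈ U, ∃ c : ℝ, Dsc (Φ x) (Φ γ - c • (Φ Zm - (Γ + M))) := fun γ u => by
      obtain ⟨r, hr⟩ := wl.rk γ u
      exact ⟨-r, by rwa [fx, smul_neg, ← neg_smul] at hr⟩
    rcases hβ with rfl | rfl | ⟨R, r, rfl⟩
    exacts [by simpa only [fν] using this _ uν, this _ uκ, this _ (uh R r)]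

end en

section ex

variable {K : Type} [Field K] [Algebra ℂ K] {n : ℕ} {Λ Ω L Γ M G β ν Z A : BD K} {c : ℝ}
  {E P : Pl K}

/-- the extraction of one place `E` which is klt for the generalised pair `Δ` -/
theorem exists_ex (hK : FF K (n + 1)) (hΛ : Smp Λ) (bΛ : Big Λ) {Δ : BD K} (hΔ : Nef (c • Λ - Δ))
    (bd : Bdy n Λ Δ) (oE : ¬ On n Λ E) (e0 : ∀ P, CLe Λ E P → -1 < dsc (n + 1) Δ P)
    (e1 : dsc (n + 1) Δ E < 0)
    (cM : M ∈ Car K) (d : Dsc Λ (Γ + M)) (cG : G ∈ Car K) :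
    ∃ L κ M' U h β, Mo n L Γ M κ M' U h ∧ E ∈ U ∧ Dsc L Λ ∧ On n L E ∧ Dsc L β ∧ β E < 0 ∧
      (∃ m : ℝ, Big (res E (β + m • Λ))) ∧ (∀ P, On n L P → P ∉ U → G P = 0 ∧ β P = 0) ∧
      ∀ P ∈ U, On n L P → -1 < dsc (n + 1) Δ P → P ≠ E → On n Λ P ∧ β P = 0 := by
  classical
  obtain ⟨s₀, -, h₀⟩ := hΛ.exists_ampOn
  have b₀ : Big (mx s₀) := h₀.big_iff.1 bΛ
  have cΓ : Γ ∈ Car K := by simpa using sub_mem d.car cM
  have cΔ : Δ ∈ Car K := by simpa using sub_mem (Submodule.smul_mem _ c hΛ.car) hΔ.car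
  obtain ⟨s, κ, T, h, l, hT, sκ, sB⟩ := exists_ls hK (finite_singleton E)
    (toFinite {Γ, M, Λ, G, Δ}) (by
      rintro β (rfl | rfl | rfl | rfl | rfl)
      exacts [cΓ, cM, hΛ.car, cG, cΔ])
  have sΓ := sB Γ (by simp)
  have sΔ := sB Δ (by simp)
  have dΛ := (sB Λ (by simp)).1
  have d₀ := dΛ.trans h₀.1
  obtain ⟨a, ha⟩ : ∃ a : Pl K → ℝ, ∀ P, a P = dsc (n + 1) Δ P + 1 := ⟨_, fun _ => rfl⟩
  have hz : ∀ P, ∃ z : ℚ, (z < a P ∧ a P - 1 ≤ z) ∧ (On n Λ P → (z : ℝ) ≤ 0) ∧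
      (P = E → (z : ℝ) < 0) ∧ (0 < a P → P ≠ E → (z : ℝ) ≤ 0 → On n Λ P ∧ (z : ℝ) = 0) := fun P => by
    rcases le_or_gt (a P) 0 with x | x
    · obtain ⟨z, z1, z2⟩ := exists_rat_btwn (sub_one_lt (a P))
      exact ⟨z, ⟨z2, z1.le⟩, fun _ => by linarith, fun _ => by linarith, fun y => by linarith⟩
    by_cases y : P = E
    · obtain ⟨z, z1, z2⟩ := exists_rat_btwn (show a P - 1 < 0 by rw [ha, y]; linarith)
      exact ⟨z, ⟨by linarith, z1.le⟩, fun _ => z2.le, fun _ => z2, fun _ w => absurd y w⟩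
    by_cases o : On n Λ P
    · exact ⟨0, ⟨by simpa using x, by simpa [ha] using bd P o⟩, fun _ => by simp,
        fun w => absurd w y, fun _ _ _ => ⟨o, by simp⟩⟩
    · obtain ⟨z, z1, z2⟩ := exists_rat_btwn (max_lt x (sub_one_lt (a P)))
      exact ⟨z, ⟨z2, ((le_max_right _ _).trans_lt z1).le⟩, fun w => absurd w o, fun w => absurd w y,
        fun _ _ w => absurd w ((le_max_left _ _).trans_lt z1).not_ge⟩
  choose z z1 z2 z3 z4 using hz
  obtain ⟨Z, hZ⟩ : ∃ Z, Z = ∑ P ∈ T, (z P : ℝ) • h P := ⟨_, rfl⟩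
  obtain ⟨p1, p2⟩ := hZ ▸ l.hull_sum fun P => (z P : ℝ)
  have qZ : CarQ Z := hZ ▸ CarQ.sum T fun P _ => (CarZ.carQ (l.hz P)).qsmul _
  obtain ⟨c₀, c0, hc⟩ := (h₀.dsc'.smul (-c)).exists_add
  obtain ⟨ε, e, hε⟩ := b₀.exists_eff p1.neg.car
  obtain ⟨m, hm⟩ := exists_nat_ge (c₀ + 1 + (n + 2) + ε⁻¹)
  have e' := inv_pos.2 e
  have n2 : (0 : ℝ) < n + 2 := by positivity
  have nb : ∀ r : ℝ, r ≤ n + 2 → Nef (Z + (m : ℝ) • mx s₀ - (Δ + Z) - r • mx s₀) ∧
      Big (Z + (m : ℝ) • mx s₀ - (Δ + Z) - r • mx s₀) := fun r hr => by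
    have := (hc (m - r - 1) (by linarith)).nef.add hΔ
    rw [show Z + (m : ℝ) • mx s₀ - (Δ + Z) - r • mx s₀ =
      mx s₀ + (-c • Λ + (m - r - 1) • mx s₀ + (c • Λ - Δ)) by module]
    exact ⟨(nef_mx _).add this, b₀.add_nef this⟩
  have su : Sup n (mx s) T (κ - (Δ + Z)) :=
    sκ.sub (sΔ.add ⟨p1, fun P o q => by rw [p2 P o, if_neg q]⟩)
  have v : ∀ P ∈ T, dsc (n + 1) (Δ + Z) P + 1 = a P - z P := fun P p => by
    rw [Pr.dsc_add, p2 P (l.on P p), if_pos p, ha]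
    ring
  have kl : Klt (n + 1) (Δ + Z) := fun Q => by
    have := l.gt su le_rfl one_pos (Q := Q) fun P p _ => by linarith [v P p, (z1 P).1]
    linarith
  have bz : Bdy n (mx s) (Δ + Z) := fun P o => by
    by_cases p : P ∈ T
    · linarith [v P p, (z1 P).2]
    · have x := su.2 P o p
      have y := l.d0 o
      simp only [dsc, Pi.sub_apply] at x y ⊢
      linarith
  obtain ⟨U, hU, sub⟩ := Mm.exists_sp l.smp l.big
    ((toFinite {M, mx s₀, κ, mx s}).union (T.finite_toSet.image h)) (by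
      rintro β ((rfl | rfl | rfl | rfl) | ⟨P, p, rfl⟩)
      exacts [(sB _ (by simp)).1, d₀, sκ.1, .refl l.smp, (l.hull P (l.on P p)).1])
  have uh : ∀ P ∈ T, h P ∈ U := fun P p => sub (.inr ⟨P, p, rfl⟩)
  have uZ : Z ∈ U := hZ ▸ sum_mem fun P p => U.smul_mem _ (uh P p)
  have u₀ : mx s₀ ∈ U := sub (by simp)
  have uD : Z + (m : ℝ) • mx s₀ ∈ U := add_mem uZ (U.smul_mem _ u₀)
  have qD : CarQ (Z + (m : ℝ) • mx s₀) := qZ.add (CarZ.carQ (CarZ.nsmul (mx_mem_CarZ _) m))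
  have dD := p1.add (d₀.smul (m : ℝ))
  have cD := add_mem cΔ p1.car
  obtain ⟨A, uA, -, -, Φ, zd, r, r0, ch⟩ := Mm.min' Api.ma n K hK (mx s) _ (mx s) U hU uD
    (sub (by simp)) (.refl l.smp) qD
    ⟨dD, _, cD, kl, bz, by simpa using (nb 0 n2.le).1, by simpa using (nb 0 n2.le).2⟩ (by
      have := (hε.smul e'.le).add ((eff_mx s₀).smul (c := m - ε⁻¹) (by linarith))
      refine (this.mono (le_of_eq ?_)).psef
      rw [smul_sub, smul_smul, inv_mul_cancel₀ e.ne']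
      module)
  have k := ch r r0 le_rfl
  have rl := Api.rel n K hK (mx s) _ _ _ s₀ l.smp l.big qD dD cD kl bz d₀ (nb _ le_rfl).1
    (nb _ le_rfl).2 zd (qD.sub (k.rat _ uD qD))
  rw [sub_sub_cancel] at rl
  have dL := k.des _ uD
  have eD : Φ (Z + (m : ℝ) • mx s₀) = Φ Z + (m : ℝ) • mx s₀ := by
    rw [map_add, map_smul, k.fix _ u₀ (dL.trans rl)]
  have le : ∀ P, Φ Z P ≤ Z P := fun P => by
    have := zd.nn P
    simp only [eD, Pi.sub_apply, Pi.add_apply, Pi.zero_apply] at this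
    linarith
  have ng : Φ Z ≤ 0 := neg'.neg n K hK (mx s₀) _ m h₀.smp b₀ (k.des _ uZ).car (eD ▸ rl.smp.nef)
    fun P o => by
      have o' := (Mm.on_amp res' hK h₀).2 o
      refine (le P).trans ?_
      rw [p2 P (Mm.on_mono res' hK hΛ dΛ o')]
      split_ifs
      exacts [z2 P o', le_rfl]
  have val : ∀ P, On n (Φ (Z + (m : ℝ) • mx s₀ + r • A)) P →
      Φ Z P = if P ∈ T then (z P : ℝ) else 0 := fun P o =>
    ((k.hull uZ).2 P o).trans (p2 P ((k.on P).1 o).1)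
  have TE : E ∈ T := hT E rfl
  have lE : Φ Z E < 0 := (le E).trans_lt (by rw [p2 E (l.on E TE), if_pos TE]; exact z3 E rfl)
  have pos : ∀ P ∈ T, On n (Φ (Z + (m : ℝ) • mx s₀ + r • A)) P → -1 < dsc (n + 1) Δ P → P ≠ E →
      On n Λ P ∧ Φ Z P = 0 := fun P p o x y => by
    have w := val P o
    rw [if_pos p] at w
    rw [w]
    exact z4 P (by linarith [ha P]) y (w ▸ ng P)
  have oD : On n (Φ (Z + (m : ℝ) • mx s₀)) E := by
    have dZ : Dsc (Φ (Z + (m : ℝ) • mx s₀)) (-Φ Z) := by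
      have := (rl.smul (m : ℝ)).sub (.refl rl.smp)
      rwa [show _ - _ = -Φ Z by rw [eD]; module] at this
    obtain ⟨P, o, x, y⟩ := ((neg'.nn n K hK _ _ rl.smp (rl.big b₀) dZ
      fun P _ => neg_nonneg.2 (ng P)).2 E).1 (neg_pos.2 lE)
    have o' := Mm.on_mono res' hK rl.smp dL o
    have x' : Φ Z P < 0 := neg_pos.1 x
    by_contra q
    by_cases p : P ∈ T
    · exact x'.ne (pos P p o' (e0 P (y.of_dsc (rl.trans h₀.dsc'))) fun w => q (w ▸ o)).2
    · exact x'.ne ((val P o').trans (if_neg p))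
  have dLΛ := dL.trans (rl.trans h₀.dsc')
  obtain ⟨m', -, hm'⟩ := (h₀.1.smul (-m : ℝ)).exists_add
  refine ⟨_, Φ κ, Φ M, T, fun P => Φ (h P), Φ Z, ⟨k.smp, k.big,
    fun P p => k.hull' (uh P p) (l.hull P (l.on P p)), k.hull' (sub (by simp)) l.term.hull,
    k.hull (sub (by simp)), dLΛ.trans d, fun P o q => ?_⟩, TE, dLΛ,
    Mm.on_mono res' hK rl.smp dL oD, k.des _ uZ, lE, ⟨m', ?_⟩, fun P o q =>
      ⟨(sB G (by simp)).2 P ((k.on P).1 o).1 q, (val P o).trans (if_neg q)⟩, pos⟩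
  · have o' := ((k.on P).1 o).1
    have v := l.d0 o'
    simp only [dsc, Pi.sub_apply, sκ.2 P o' q, sΓ.2 P o' q] at v ⊢
    exact v
  · have := ((res'.on n K hK _ E rl.smp).1 oD).add_smp (res_smp hK E (hm' m' le_rfl))
    rwa [← res_add hK E rl.smp.car (hm' m' le_rfl).car, show _ + _ = Φ Z + m' • Λ by
      rw [eD]; module] at this

section acc

theorem pos_of_mul_pos_of_nonneg {a b : ℝ} (h : 0 < a * b) (k : 0 ≤ b) : 0 < a :=
  not_le.1 fun e => h.not_ge (mul_nonpos_of_nonpos_of_nonneg e k)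

variable {N p : ℕ} {I : Set ℝ} {δ γ : ℝ}

theorem Mo.zero {κ M' : BD K} {U : Finset (Pl K)} {h : Pl K → BD K} (hK : FF K (n + 1))
    (m : Mo n L Γ M κ M' U h) (p : P ∈ U) (o : ¬ On n L P) : h P = 0 :=
  Mm.hull_eq neg' hK m.big (m.hh P p) ⟨.zero m.smp, fun Q q =>
    (Pl.δ_ne fun y : Q = P => o (y ▸ q)).symm⟩

theorem Mo.nn {κ M' : BD K} {U : Finset (Pl K)} {h : Pl K → BD K} (hK : FF K (n + 1))
    (m : Mo n L Γ M κ M' U h) (p : P ∈ U) : 0 ≤ h P :=
  Gs.det neg' hK m.smp m.big (m.hh P p).1 fun Q q => (m.hh P p).2 Q q ▸ P.δ_nonneg Q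

/-- a divisor with support in `U` -/
theorem Mo.exp {κ M' : BD K} {U : Finset (Pl K)} {h : Pl K → BD K} (hK : FF K (n + 1))
    (m : Mo n L Γ M κ M' U h) (d : Dsc L β) (z : ∀ P, On n L P → P ∉ U → β P = 0) :
    β = ∑ P ∈ U, β P • h P := by
  classical
  refine Gs.det_eq neg' hK m.smp m.big d (Dsc.sum m.smp U fun P p => (m.hh P p).1.smul _)
    fun Q o => ?_
  rw [Finset.sum_apply, Finset.sum_congr rfl fun P p => show _ = if Q = P then β P else 0 by
    rw [Pi.smul_apply, (m.hh P p).2 Q o, Pl.δ]; split_ifs <;> simp, Finset.sum_ite_eq]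
  split_ifs with q
  exacts [rfl, z Q o q]

/-- a component through a point where the restriction is positive -/
theorem Mo.comp {κ M' : BD K} {U : Finset (Pl K)} {h : Pl K → BD K} (hK : FF K (n + 1))
    (m : Mo n L Γ M κ M' U h) (d : Dsc L β) (z : ∀ P, On n L P → P ∉ U → β P = 0) (o : On n L E)
    (e : β E = 0) {Q : Pl E.κ} (q : 0 < res E β Q) :
    ∃ R ∈ U, R ≠ E ∧ 0 < β R ∧ res E (h R) Q ≠ 0 := by
  rw [m.exp hK d z, res_sum hK E U fun P p => Submodule.smul_mem _ _ (m.hh P p).1.car,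
    Finset.sum_apply] at q
  obtain ⟨R, r, k⟩ := Finset.exists_lt_of_sum_lt (Finset.sum_const_zero.trans_lt q)
  rw [res_smul hK E _ (m.hh R r).1.car, Pi.smul_apply, smul_eq_mul] at k
  have ne : R ≠ E := fun y => by simp [y, e] at k
  have := res_nonneg hK E (m.hh R r).1.car (m.nn hK r)
    (((m.hh R r).2 E o).trans (Pl.δ_ne ne.symm)) Q
  exact ⟨R, r, ne, pos_of_mul_pos_of_nonneg k this, right_ne_zero_of_mul k.ne'⟩

theorem num_adj (hK : FF K (n + 1)) (cM : M ∈ Car K) (d : Dsc Λ (Γ + M)) (E : Pl K) :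
    Dsc (res E Λ) (adj n E Γ + res E M) := by
  have cΓ : Γ ∈ Car K := by simpa using sub_mem d.car cM
  refine (res_dsc hK E d).congr ?_
  rw [res_add hK E cΓ cM, add_sub_add_right_eq_sub]
  exact (a1 n K hK E Γ cΓ).2.1

theorem numO_of (d : Dsc Λ β) : NumO Λ β := by
  obtain ⟨ε, e, a, b⟩ := d
  refine ⟨ε⁻¹, ?_, ?_⟩
  · simpa [smul_smul, e.ne'] using (a.smul (inv_pos.2 e).le).nef
  · simpa [smul_sub, smul_smul, e.ne'] using (b.smul (inv_pos.2 e).le).nef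

theorem ac0_of (hA : ADJ) (hV : VERT) (hF : FOLH) (hH : HORP) (hp : 0 < p) (d0 : 0 ≤ δ)
    (g1 : γ ≤ 1 / 2) (g2 : ∀ s ∈ Cs I p, s < γ → s = 0) (g3 : δ < γ) (hN : n ≤ N)
    (H : GAR N p (Dv I p) δ) : AC0 n p I δ := by
  intro K _ _ hK Λ Γ M Γ₀ G c S hΛ bΛ up hM pM d bd n₀ b₀ k₀ lc co dG G0 le Q hQ
  by_contra q
  have cΓ : Γ ∈ Car K := by simpa using sub_mem d.car hM.car
  obtain ⟨T, hT⟩ := Pr.fin_chk hK (toFinite {Γ, G, Λ}) (by
    rintro β (rfl | rfl | rfl)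
    exacts [cΓ, dG.car, hΛ.car])
  have key : ∀ t : ℝ, ∀ Q ∈ S, dsc (n + 1) (Γ + t • G) Q < -1 →
      ∃ P ∈ T, P ∈ S ∧ dsc (n + 1) Γ P + 1 < t * G P := fun t Q hQ k => by
    obtain ⟨P, a, b, e⟩ := (hT (Γ + t • G) (add_mem (Submodule.subset_span (by simp))
      (Submodule.smul_mem _ _ (Submodule.subset_span (by simp)))) Q 0 le_rfl).2 zero_le_one
      (by linarith)
    rw [Pr.dsc_add_smul] at b
    exact ⟨P, a, up Q hQ P (e Λ (Submodule.subset_span (by simp))), by linarith⟩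
  obtain ⟨P₁, p1, p2, p3⟩ := key 1 Q hQ (by simpa using q)
  have p4 : 0 < G P₁ := by linarith [lc P₁ p2]
  obtain ⟨E, ⟨-, eS, eG⟩, mn⟩ := exists_min_image {P | P ∈ T ∧ P ∈ S ∧ 0 < G P}
    (fun P => (dsc (n + 1) Γ P + 1) / G P) (T.finite_toSet.subset fun _ h => h.1) ⟨P₁, p1, p2, p4⟩
  obtain ⟨t, ht⟩ : ∃ t, t = (dsc (n + 1) Γ E + 1) / G E := ⟨_, rfl⟩
  simp only [← ht] at mn
  have t0 : 0 ≤ t := ht ▸ div_nonneg (by linarith [lc E eS]) eG.le
  have t1 : t < 1 := (mn P₁ ⟨p1, p2, p4⟩).trans_lt ((div_lt_one p4).2 (by linarith))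
  have tE : t * G E = dsc (n + 1) Γ E + 1 := by rw [ht, div_mul_cancel₀ _ eG.ne']
  have lt : ∀ Q ∈ S, -1 ≤ dsc (n + 1) (Γ + t • G) Q := fun Q hQ => not_lt.1 fun k => by
    obtain ⟨P, a, b, e⟩ := key t Q hQ k
    have g : 0 < G P := pos_of_mul_pos_of_nonneg (a := G P) (by linarith [lc P b]) t0
    linarith [(le_div_iff₀ g).1 (mn P ⟨a, b, g⟩)]
  have dE : dsc (n + 1) (Γ + t • G) E = -1 := by rw [Pr.dsc_add_smul]; linarith
  have oE : ¬ On n Λ E := fun o => by nlinarith [(le E eS o).1]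
  have d' : Dsc Λ (Γ + t • G + M) := by rw [add_right_comm]; exact d.add (dG.smul t)
  obtain ⟨σ, s0, s1, s2⟩ := ex_small {E} (fun P => dsc (n + 1) Γ₀ P + 1) (fun _ => 1) one_pos
  have s3 := s2 E (by simp) one_pos
  obtain ⟨c₁, -, hc₁⟩ := d'.neg.exists_add
  have v : ∀ P, dsc (n + 1) ((1 - σ) • (Γ + t • G) + σ • Γ₀) P =
      (1 - σ) * dsc (n + 1) (Γ + t • G) P + σ * dsc (n + 1) Γ₀ P := fun P => by
    simp only [dsc, Pi.sub_apply, Pi.add_apply, Pi.smul_apply, smul_eq_mul]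
    ring
  have kS : ∀ P ∈ S, -1 < dsc (n + 1) ((1 - σ) • (Γ + t • G) + σ • Γ₀) P := fun P a => by
    rw [v]
    nlinarith [mul_nonneg (sub_nonneg.2 s1) (neg_le_iff_add_nonneg.1 (lt P a)),
      mul_pos s0 (neg_lt_iff_pos_add.1 (k₀ P a))]
  obtain ⟨L, κ, M', U, h, β, m, eU, dL, oL, dβ, βE, ⟨r, bg⟩, out, ins⟩ :=
    exists_ex (c := (1 - σ) * c₁ + σ * c) (Δ := (1 - σ) • (Γ + t • G) + σ • Γ₀) hK hΛ bΛ (by
      have := (((hc₁ c₁ le_rfl).nef.add hM).smul (sub_nonneg.2 s1)).add (n₀.smul s0.le)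
      rwa [show _ + _ = ((1 - σ) * c₁ + σ * c) • Λ - ((1 - σ) • (Γ + t • G) + σ • Γ₀) by
        module] at this) (fun P o => by
      rw [v, Pr.dsc_add_smul]
      nlinarith [mul_nonneg t0 (G0 P), bd P o, b₀ P o]) oE (fun P a => kS P (up E eS P a))
      (by rw [v, dE]; linarith) hM.car d' dG.car
  cases n with
  | zero => exact oE (zero_lt_one (α := ℝ))
  | succ n =>
  have hE := Gm.ff_κ E hK
  obtain ⟨l, hl⟩ : ∃ l, l = G E / -β E := ⟨_, rfl⟩
  have l0 : 0 < l := hl ▸ div_pos eG (neg_pos.2 βE)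
  have dG' := (dL.trans dG).add (dβ.smul l)
  obtain ⟨c₂, -, hc₂⟩ := dG.exists_add
  obtain ⟨Q', q1, q2, q3⟩ := hH n _ hE (res E L) (res E Λ) (res E (G + l • β)) (c₂ + l * r)
    (res_smp hK E m.smp) ((res'.on _ K hK L E m.smp).1 oL) (res_smp hK E hΛ) (res_dsc hK E dL)
    (mt (res'.on _ K hK Λ E hΛ).2 oE) (res_dsc hK E dG') (by
      have c1 := add_mem dβ.car (Submodule.smul_mem _ r hΛ.car)
      have := (bg.smul l0).add_smp (res_smp hK E (hc₂ c₂ le_rfl))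
      rwa [← res_smul hK E _ c1, ← res_add hK E (Submodule.smul_mem _ _ c1) (hc₂ c₂ le_rfl).car,
        show _ + _ = G + l • β + (c₂ + l * r) • Λ by module, res_add_smul hK E dG'.car hΛ.car]
        at this)
  have inS : ∀ Q : Pl E.κ, Hor (fld (res E Λ)) Q → ∀ R ∈ U, res E (h R) Q ≠ 0 → R ≠ E →
      R ∈ S ∧ On (n + 1) Λ R ∧ β R = 0 := fun Q a R b e x => by
    have o : On (n + 1) L R := by_contra fun o => e (by rw [m.zero hK b o, res_zero hK]; rfl)
    have s : R ∈ S := by_contra fun s => e (hV _ K hK L Λ (h R) E Q m.smp m.big hΛ dL (m.hh R b).1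
      (m.nn hK b) (fun P y w u => by
        rw [(m.hh R b).2 P y] at w
        obtain rfl : P = R := by_contra fun i => w.ne' (Pl.δ_ne i)
        exact s (up E eS P u)) a).2
    exact ⟨s, ins R b o (kS R s) x⟩
  have lcQ : ∀ Q : Pl E.κ, Hor (fld (res E Λ)) Q →
      -1 ≤ dsc (n + 1) (adj (n + 1) E (Γ + t • G)) Q := fun Q a => by
    obtain ⟨R, -, b, e⟩ := hF _ K hK Λ _ E Q hΛ (add_mem cΓ (Submodule.smul_mem _ t dG.car)) dE a
    exact e ▸ lt R (up E eS R b)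
  have ad := fun (Q : Pl E.κ) (a : Hor (fld (res E Λ)) Q) (o : On n (res E L) Q) =>
    hA n p I δ γ K hK L (Γ + t • G) M κ M' E U h hp d0 m.smp m.big oL eU m.hh m.hk m.hm hM pM m.des
      m.out dE Q o (lcQ Q a) fun R b x e => by
        obtain ⟨s, o', -⟩ := inS Q a R b e x
        have u := co R s o'
        rw [Pr.dsc_add_smul]
        rcases (G0 R).eq_or_lt with w | w
        · simpa [← w] using u
        · have := mul_nonneg t0 w.le
          exact ⟨by linarith [u.1], .inr (.inr (by linarith [(le R s o').2 w]))⟩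
  obtain ⟨R, r1, r2, r3, r4⟩ := m.comp hK dG' (fun P o a => by simp [out P o a]) oL
    (by simp [hl, div_neg, βE.ne]) q3
  obtain ⟨s, o, z⟩ := inS Q' q1 R r1 r4 r2
  have g : 0 < G R := by simpa [z] using r3
  obtain ⟨x, y⟩ := (ad Q' q1 q2).2 g1 g2 g3 R r1 r2 r4
    (by rw [Pr.dsc_add_smul]; nlinarith [(le R s o).1])
    (by rw [Pr.dsc_add_smul]; nlinarith [(le R s o).2 g])
  rcases H n _ hE (res E L) (res E Λ) _ (res E M) (res_smp hK E m.smp)
    ((res'.on _ K hK L E m.smp).1 oL) (res_smp hK E hΛ) (res_dsc hK E dL) (by omega)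
    (res_nef hK E hM) (res_smul hK E _ hM.car ▸ res_carZ hK E pM)
    (numO_of (num_adj hK hM.car d' E)) lcQ (fun Q a o => (ad Q a o).1) Q' q1 with w | w
  · linarith
  · linarith

end acc

end ex

section gl

variable {K : Type} [Field K] [Algebra ℂ K] {n : ℕ} {Λ Ω L B Γ M G β ν Z A κ M' : BD K} {c : ℝ}
  {E P : Pl K} {U X : Finset (Pl K)} {h : Pl K → BD K} {N p : ℕ} {I : Set ℝ} {δ δ' γ : ℝ}

theorem GA0.mono (H : GA0 n p I δ) (e : δ' ≤ δ) : GA0 n p I δ' :=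
  fun K _ _ hK Λ Γ M a b c d f g k P =>
    (H K hK Λ Γ M a b c d f g (fun P o => (k P o).mono e) P).imp_right e.trans_lt

theorem prn_of_dsc (hK : FF K n) (hB : B ∈ Prn K) (d : Dsc B β) : β ∈ Prn K := by
  obtain ⟨ε, e, a, b⟩ := d
  obtain ⟨G, r⟩ := a.eff
  obtain ⟨G', r'⟩ := b.eff
  have z := Ba.prn_zero hK (β := G + G') (by
    rw [show G + G' = G - (B + ε • β) + (G' - (B - ε • β)) + (B + B) by module]
    exact add_mem (add_mem r.2 r'.2) (add_mem hB hB)) (add_nonneg r.1 r'.1)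
  have g : G = 0 := le_antisymm (z ▸ le_add_of_nonneg_right r'.1) r.1
  have := Submodule.smul_mem _ (-ε⁻¹) (add_mem r.2 hB)
  rwa [g, show (0 : BD K) - (B + ε • β) + B = -ε • β by module, smul_smul, neg_mul_neg,
    inv_mul_cancel₀ e.ne', one_smul] at this

theorem sgn (hK : FF K (n + 1)) (b : Big A) (q : Psef (-(c • A))) : c ≤ 0 :=
  not_lt.1 fun e => not_big0 hK (by simpa using (b.smul e).add_psef q)

/-- a model of rank one on which the places of `X` are divisors -/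
structure Rk (n : ℕ) (I : Set ℝ) (δ : ℝ) (Γ M : BD K) (X : Finset (Pl K)) (L κ M' G : BD K)
    (U : Finset (Pl K)) (h : Pl K → BD K) : Prop where
  mo : Mo n L Γ M κ M' U h
  sub : X ⊆ U
  eq : G = ∑ P ∈ X, (dsc (n + 1) Γ P + 1) • h P
  on : ∀ P ∈ X, On n L P
  co : ∀ P, On n L P → Co I δ (dsc (n + 1) Γ P + 1)
  prn : Γ + M ∈ Prn K
  amp : AmpOn L G
  lc : Lc (n + 1) (Γ + G)
  rk : ∀ β, (β = κ ∨ ∃ R ∈ U, β = h R) → ∃ c : ℝ, β - c • G ∈ Prn K

theorem exists_rk (hH : HORP) (H : GAR n p I δ) (H' : AC0 n p I δ) (d1 : δ ≤ 1 / 2)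
    (hK : FF K (n + 1)) (hΛ : Smp Λ) (bΛ : Big Λ) (hM : Nef M) (pM : (p : ℝ) • M ∈ CarZ K)
    (hν : Num (Γ + M)) (lc : Lc (n + 1) Γ) (co : ∀ P, On n Λ P → Co I δ (dsc (n + 1) Γ P + 1))
    (hX : ∀ P ∈ X, dsc (n + 1) Γ P + 1 ≤ δ) (hE : E ∈ X) (e0 : -1 < dsc (n + 1) Γ E) :
    ∃ L κ M' G U h, Rk n I δ Γ M X L κ M' G U h := by
  classical
  obtain ⟨L, B, κ, M', G, U, h, e⟩ := exists_en hK hΛ bΛ hM hν lc
    (fun P o => by linarith [(co P o).1]) X (fun P a => (hX P a).trans d1) hE e0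
  have m := e.mo
  have d0 : 0 ≤ δ := by linarith [hX E hE]
  have co' : ∀ P, On n L P → Co I δ (dsc (n + 1) Γ P + 1) := fun P o => by
    rcases e.on P o with a | a | a | a
    · exact ⟨by linarith [hX P a], .inr (.inr (hX P a))⟩
    · exact co P a
    · exact ⟨by linarith, .inr (.inr (by linarith))⟩
    · exact ⟨by linarith, .inl (by linarith)⟩
  have val : ∀ Q, On n L Q → G Q = if Q ∈ X then dsc (n + 1) Γ Q + 1 else 0 := fun Q o => by
    rw [e.eq, Finset.sum_apply, Finset.sum_congr rfl fun P a =>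
      show _ = if Q = P then dsc (n + 1) Γ P + 1 else 0 by
        rw [Pi.smul_apply, (m.hh P (e.sub a)).2 Q o, Pl.δ]; split_ifs <;> simp, Finset.sum_ite_eq]
  have dG : Dsc L G := e.eq ▸ Dsc.sum m.smp X fun P a => (m.hh P (e.sub a)).1.smul _
  have G0 : 0 ≤ G := e.eq ▸ Finset.sum_nonneg fun P a =>
    smul_nonneg (by linarith [lc P]) (m.nn hK (e.sub a))
  obtain ⟨Γ₀, k1, k2, k3⟩ := e.klt
  have lG : Lc (n + 1) (Γ + G) := fun Q => H' K hK L Γ M Γ₀ G 1 univ m.smp m.big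
    (fun _ _ _ _ => trivial) hM pM m.des (fun P o => by linarith [(co' P o).1]) k1 k2
    (fun Q _ => k3 Q) (fun Q _ => lc Q) (fun P _ => co' P) dG G0 (fun P _ o => by
      rw [val P o]
      split_ifs with a
      exacts [⟨le_rfl, fun _ => hX P a⟩, ⟨by linarith [lc P], fun w => absurd w (lt_irrefl _)⟩])
    Q trivial
  obtain ⟨r, a⟩ := e.amp
  obtain ⟨P, p1, p2, p3⟩ := hH n K hK L B G r m.smp m.big e.smp e.des e.nb dG
    (((a.big_iff.1 m.big).add_nef hν.1).of_sub (by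
      rw [show _ - _ = (0 : BD K) by module]; exact .zero))
  have pB : B ∈ Prn K := (prn_iff_dim hK e.smp).2 (by_contra fun z => by
    rw [val P p2] at p3
    split_ifs at p3 with x
    · rcases H n K hK L B Γ M m.smp m.big e.smp e.des (by omega) hM pM
        ⟨0, by simpa using hν.1, by simpa using hν.2⟩ (fun P _ => lc P) (fun P _ => co' P) P p1
        with w | w
      · linarith
      · linarith [hX P x]
    · exact lt_irrefl _ p3)
  have a' : AmpOn L (G - (Γ + M)) := a.congr (by simpa using Submodule.smul_mem _ r pB)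
  have b := a'.big_iff.1 m.big
  have pν : Γ + M ∈ Prn K := by
    obtain ⟨c, hc⟩ := e.rk _ (.inl rfl)
    have q := prn_of_dsc hK pB hc
    have x := sgn hK b (c := c) (hν.2.psef.congr (by rwa [neg_sub_neg]))
    have y := sgn hK b (c := -c) (hν.1.psef.congr (by simpa using neg_mem q))
    simpa [show c = 0 by linarith] using q
  refine ⟨L, κ, M', G, U, h, m, e.sub, e.eq, fun P a => by_contra fun o => ?_, co', pν,
    a'.congr (by simpa using pν), lG, fun β hβ => ?_⟩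
  · have x := lG P
    rw [Pr.dsc_add] at x
    linarith [e.lt P a o]
  · obtain ⟨c, hc⟩ := e.rk β (.inr hβ)
    have := sub_mem (prn_of_dsc hK pB hc) (Submodule.smul_mem _ c pν)
    exact ⟨c, by rwa [show _ - _ = β - c • G by module] at this⟩

theorem Rk.pos (hK : FF K (n + 1)) (r : Rk n I δ Γ M X L κ M' G U h) (a : P ∈ X) :
    ∃ u : ℝ, 0 < u ∧ h P - u • G ∈ Prn K := by
  obtain ⟨u, hu⟩ := r.rk _ (.inr ⟨P, r.sub a, rfl⟩)
  have k := r.mo.hh P (r.sub a)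
  refine ⟨u, not_le.1 fun e => no_psef hK r.mo.smp (r.on P a) k.1.car (r.mo.nn hK (r.sub a))
    (by simp [k.2 P (r.on P a), P.δ_self]) ?_, hu⟩
  exact (r.amp.smp.smul (neg_nonneg.2 e)).psef.congr (by simpa [neg_add_eq_sub] using neg_mem hu)

/-- one coefficient is raised to one, adjunction -/
theorem raise (hA : ADJ) (hH : HORP) (hp : 0 < p) (g1 : γ ≤ 1 / 2)
    (g2 : ∀ s ∈ Cs I p, s < γ → s = 0) (g3 : δ < γ) (H : GA0 n p (Dv I p) δ) (hK : FF K (n + 2))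
    (m : Mo (n + 1) L Γ M κ M' U h) (hM : Nef M) (pM : (p : ℝ) • M ∈ CarZ K) (pν : Γ + M ∈ Prn K)
    (co : ∀ P, On (n + 1) L P → Co I δ (dsc (n + 2) Γ P + 1)) {S R : Pl K} (uS : S ∈ U)
    (uR : R ∈ U) (ne : R ≠ S) (oS : On (n + 1) L S) (oR : On (n + 1) L R) (am : AmpOn L (h R))
    (c0 : 0 ≤ c) (q : (dsc (n + 2) Γ S + 1) • h S - c • h R ∈ Prn K)
    (r0 : 0 < dsc (n + 2) Γ R + 1 + c) (r1 : dsc (n + 2) Γ R + 1 + c ≤ δ)
    (lc : Lc (n + 2) (Γ + (dsc (n + 2) Γ S + 1) • h S)) : False := by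
  obtain ⟨Γ', hΓ⟩ : ∃ Γ', Γ' = Γ + ((dsc (n + 2) Γ S + 1) • h S - c • h R) := ⟨_, rfl⟩
  have v : ∀ P, dsc (n + 2) Γ' P =
      dsc (n + 2) Γ P - (dsc (n + 2) Γ S + 1) * h S P + c * h R P := fun P => by
    rw [hΓ, Pr.dsc_add]
    simp only [Pi.sub_apply, Pi.smul_apply, smul_eq_mul]
    ring
  have v' : ∀ P, On (n + 1) L P → dsc (n + 2) Γ' P =
      dsc (n + 2) Γ P - (dsc (n + 2) Γ S + 1) * S.δ P + c * R.δ P := fun P o => by
    rw [v, (m.hh S uS).2 P o, (m.hh R uR).2 P o]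
  have p' : Γ' + M ∈ Prn K := by rw [hΓ, add_right_comm]; exact add_mem pν q
  have c' : Γ' ∈ Car K := by simpa using sub_mem (Prn_le_Car p') hM.car
  have lc' : Lc (n + 2) Γ' := fun P => by
    have x := lc P
    rw [Pr.dsc_add_smul] at x
    linarith [v P, mul_nonneg c0 (m.nn hK uR P)]
  have dS : dsc (n + 2) Γ' S = -1 := by
    rw [v' S oS, S.δ_self, Pl.δ_ne ne.symm]
    ring
  have dR : dsc (n + 2) Γ' R = dsc (n + 2) Γ R + c := by
    rw [v' R oR, R.δ_self, Pl.δ_ne ne]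
    ring
  have hS := Gm.ff_κ S hK
  have la := (a2l _ K hK S Γ' c' dS).2.1 lc'
  have sS := res_smp hK S m.smp
  have bS := (res'.on _ K hK L S m.smp).1 oS
  have ad := fun (Q : Pl S.κ) (o : On n (res S L) Q) => hA n p I δ γ K hK L Γ' M κ M' S U h hp
    (r0.le.trans r1) m.smp m.big oS uS m.hh m.hk m.hm hM pM (.of_prn m.smp p') (fun P o a => by
      rw [v' P o, m.out P o a, Pl.δ_ne fun y : P = S => a (y ▸ uS),
        Pl.δ_ne fun y : P = R => a (y ▸ uR)]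
      ring) dS Q o (la Q) fun P a b e => by
      have o : On (n + 1) L P := by_contra fun o => e (by rw [m.zero hK a o, res_zero hK]; rfl)
      by_cases y : P = R
      · rw [y, dR]
        exact ⟨by linarith, .inr (.inr (by linarith))⟩
      · simpa [v' P o, Pl.δ_ne b, Pl.δ_ne y] using co P o
  obtain ⟨Q, -, q2, q3⟩ := hH n _ hS (res S L) 0 (res S (h R)) 0 sS bS .zero (.zero sS)
    (not_big0 hS) (res_dsc hK S am.1) (by simpa using (res_ampOn hK S am).big_iff.1 bS)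
  obtain ⟨x, y⟩ := (ad Q q2).2 g1 g2 g3 R uR ne q3.ne' (by linarith) (by linarith)
  rcases H _ hS (res S L) _ (res S M) sS bS (res_nef hK S hM)
    (res_smul hK S _ hM.car ▸ res_carZ hK S pM) (.of_prn (prn_of_dsc hS
      (res_prn hK S (zero_mem _)) (num_adj hK hM.car (.of_prn .zero p') S))) la
    (fun Q o => (ad Q o).1) Q with w | w
  · linarith
  · linarith

/-- **Step A**: there are no two places with small log discrepancies -/
theorem stepA (hA : ADJ) (hH : HORP) (hp : 0 < p) (g1 : γ ≤ 1 / 2)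
    (g2 : ∀ s ∈ Cs I p, s < γ → s = 0) (g3 : 2 * δ < γ) (H : GA0 n p (Dv I p) (2 * δ))
    (hK : FF K (n + 2)) [DecidableEq (Pl K)] {T : Pl K} (ne : T ≠ E)
    (r : Rk (n + 1) I δ Γ M {E, T} L κ M' G U h) (hM : Nef M) (pM : (p : ℝ) • M ∈ CarZ K)
    (e0 : 0 < dsc (n + 2) Γ E + 1) (e1 : dsc (n + 2) Γ E + 1 ≤ δ) (t0 : 0 ≤ dsc (n + 2) Γ T + 1)
    (t1 : dsc (n + 2) Γ T + 1 ≤ δ) : False := by
  have xE : E ∈ ({E, T} : Finset (Pl K)) := by simp
  have xT : T ∈ ({E, T} : Finset (Pl K)) := by simp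
  obtain ⟨u, u0, hu⟩ := r.pos hK xE
  obtain ⟨w, w0, hw⟩ := r.pos hK xT
  have eq := r.eq
  rw [Finset.sum_pair ne.symm] at eq
  have co := fun P o => (r.co P o).mono (show δ ≤ 2 * δ by linarith)
  have nE := r.mo.nn hK (r.sub xE)
  have nT := r.mo.nn hK (r.sub xT)
  have pr : ∀ (a b x y : ℝ) (α β : BD K), α - x • G ∈ Prn K → β - y • G ∈ Prn K → a * x = b * y →
      a • α - b • β ∈ Prn K := fun a b x y α β i j k => by
    have := sub_mem (Submodule.smul_mem _ a i) (Submodule.smul_mem _ b j)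
    rwa [smul_sub, smul_sub, smul_smul, smul_smul, k, sub_sub_sub_cancel_right] at this
  rcases le_or_gt ((dsc (n + 2) Γ T + 1) * w) ((dsc (n + 2) Γ E + 1) * u) with x | x
  · have c0 : 0 ≤ (dsc (n + 2) Γ T + 1) * w / u := by positivity
    refine raise hA hH hp g1 g2 g3 H hK r.mo hM pM r.prn co (r.sub xT) (r.sub xE) ne.symm
      (r.on T xT) (r.on E xE) ((r.amp.smul u0).congr hu) c0
      (pr _ _ _ _ _ _ hw hu (div_mul_cancel₀ _ u0.ne').symm) (by linarith)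
      (by linarith [(div_le_iff₀ u0).2 x]) fun P => ?_
    have y := r.lc P
    rw [eq, Pr.dsc_add] at y
    rw [Pr.dsc_add_smul]
    simp only [Pi.add_apply, Pi.smul_apply, smul_eq_mul] at y
    linarith [mul_nonneg e0.le (nE P)]
  · have c0 : 0 < (dsc (n + 2) Γ E + 1) * u / w := by positivity
    refine raise hA hH hp g1 g2 g3 H hK r.mo hM pM r.prn co (r.sub xE) (r.sub xT) ne
      (r.on E xE) (r.on T xT) ((r.amp.smul w0).congr hw) c0.le
      (pr _ _ _ _ _ _ hu hw (div_mul_cancel₀ _ w0.ne').symm) (by linarith)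
      (by linarith [(div_le_iff₀ w0).2 x.le]) fun P => ?_
    have y := r.lc P
    rw [eq, Pr.dsc_add] at y
    rw [Pr.dsc_add_smul]
    simp only [Pi.add_apply, Pi.smul_apply, smul_eq_mul] at y
    linarith [mul_nonneg t0 (nT P)]

/-- **Step B**: one place with a small log discrepancy -/
theorem stepB (hK : FF K (n + 1)) (hp : 0 < p) {q : ℕ} (q0 : 0 < q) (d1 : δ ≤ 1 / 2)
    (hq : ∀ a ∈ I, δ ≤ a → ∃ z : ℤ, (q : ℝ) * a = z) (r : Rk n I δ Γ M {E} L κ M' G U h)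
    (hM : Nef M) (pM : (p : ℝ) • M ∈ CarZ K) (e0 : 0 < dsc (n + 1) Γ E + 1)
    (e1 : dsc (n + 1) Γ E + 1 ≤ δ) (k : ∀ T, T ≠ E → δ < dsc (n + 1) Γ T + 1) :
    Fa n δ κ ∧ ∃ β, AmpOn (-κ) β ∧ (∀ P, On n (-κ) P → ∃ z : ℤ, β P = z) ∧
      vol (n + 1) β ≤ (2 * p * q * (dsc (n + 1) Γ E + 1)) ^ (n + 1) * vol (n + 1) (-κ) := by
  obtain ⟨a, ha⟩ : ∃ a, a = dsc (n + 1) Γ E + 1 := ⟨_, rfl⟩
  have m := r.mo
  have xE : E ∈ ({E} : Finset (Pl K)) := by simp
  have hE := m.hh E (r.sub xE)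
  have eq : G = a • h E := by rw [r.eq, Finset.sum_singleton, ha]
  rw [← ha] at e0 e1 ⊢
  have le : M ≤ Γ + M - κ - (1 - a) • h E := Mm.le_hull neg' hK m.big hM
    ((m.des.sub m.hk.1).sub (hE.1.smul _)) fun P o => by
      have x := (r.co P o).1
      simp only [dsc, Pi.sub_apply, Pi.add_apply, Pi.smul_apply, smul_eq_mul, m.hk.2 P o,
        hE.2 P o] at x ha ⊢
      by_cases y : P = E
      · rw [y, E.δ_self]
        linarith
      · rw [Pl.δ_ne y]
        linarith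
  have ps : Psef (-κ - (1 - a) • h E) := (hM.psef.mono le).congr (by
    rw [show _ - _ = -(Γ + M) by module]; exact neg_mem r.prn)
  have aE : AmpOn L (h E) := by
    simpa [eq, smul_smul, e0.ne'] using r.amp.smul (inv_pos.2 e0)
  obtain ⟨c, hc⟩ := r.rk κ (.inl rfl)
  have c0 : c < 0 := not_le.1 fun e => not_big0 hK (by
    have := (((aE.big_iff.1 m.big).smul (c := 1 - a) (by linarith)).add_psef ps).add_psef
      ((r.amp.smp.smul e).psef.congr hc)
    simpa using this)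
  have aκ : AmpOn L (-κ) := (r.amp.smul (neg_pos.2 c0)).congr
    (by simpa [neg_add_eq_sub] using neg_mem hc)
  have on := fun P => Mm.on_amp res' hK aκ (P := P)
  have pq : (0 : ℝ) < p * q := by positivity
  have aβ : AmpOn L ((p * q : ℝ) • (Γ + M + G)) :=
    (r.amp.congr (by simpa using r.prn)).smul pq
  refine ⟨⟨aκ.smp, aκ.big_iff.1 m.big, fun P o => sub_eq_zero.2 (m.hk.2 P ((on P).2 o)).symm,
    fun P => ?_⟩, _, aκ.amp_iff.1 aβ, fun P o => ?_, ?_⟩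
  · by_cases y : P = E
    · have := m.hk.2 E (r.on E xE)
      simp only [y, dsc, Pi.sub_apply, this]
      linarith
    · have x := k P y
      have z := le P
      have w := mul_nonneg (show 0 ≤ 1 - a by linarith) (m.nn hK (r.sub xE) P)
      simp only [dsc, Pi.sub_apply, Pi.add_apply, Pi.smul_apply, smul_eq_mul] at x z ⊢
      linarith
  · have o' := (on P).2 o
    obtain ⟨x, hx⟩ := (Api.mod.isb n K hK).2.2 P
    obtain ⟨y, hy⟩ := CarZ.int pM P
    obtain ⟨z, hz⟩ : ∃ z : ℤ, (q : ℝ) * (dsc (n + 1) Γ P + 1 - a * E.δ P) = z := by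
      by_cases w : P = E
      · exact ⟨0, by simp [w, E.δ_self, ha]⟩
      rw [Pl.δ_ne w, mul_zero, sub_zero]
      rcases (r.co P o').2 with i | i | i
      exacts [⟨q, by simp [i]⟩, hq _ i (k P w).le, absurd i (k P w).not_ge]
    refine ⟨p * q * (x + 1) + q * y - p * z, ?_⟩
    simp only [dsc, Pi.sub_apply, Pi.add_apply, Pi.smul_apply, smul_eq_mul, eq, hE.2 P o', hx]
      at hy hz ⊢
    push_cast
    rw [← hy, ← hz]
    ring
  · rw [← (In.hy.row _ K hK).vol_smul _ aκ.car]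
    refine Api.vol.mono _ K hK _ _ aβ.nef (aκ.smp.smul (by positivity)).nef ?_
    have := ((ps.smul (c := 2 * p * q * a) (by positivity)).add (aE.smp.smul
      (c := p * q * a * (1 - 2 * a)) (mul_nonneg (by positivity) (by linarith))).psef).add_prn
      (Submodule.smul_mem _ (-(p * q : ℝ)) r.prn)
    refine this.mono (le_of_eq ?_)
    rw [eq]
    module

/-- global ACC in all dimensions up to `N` -/
theorem ga_all (hC : CURVE) (hB : FIB) (hA : ADJ) (hV : VERT) (hF : FOLH) (hH : HORP) (N : ℕ)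
    (w : ∀ m < N, WV m) : ∀ (p : ℕ) (I : Set ℝ), 0 < p → Den I →
      ∃ δ : ℝ, 0 < δ ∧ ∀ n < N, GA0 n p I δ := by
  induction N with
  | zero => exact fun _ _ _ _ => ⟨1, one_pos, fun _ h => absurd h (Nat.not_lt_zero _)⟩
  | succ N ih =>
  intro p I hp hI
  cases N with
  | zero =>
    obtain ⟨δ, a, b⟩ := hC p I hp hI
    exact ⟨δ, a, fun n h => Nat.lt_one_iff.1 h ▸ b⟩
  | succ N =>
  classical
  obtain ⟨δ₁, a1, b1⟩ := ih (fun m h => w m (by omega)) p I hp hI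
  obtain ⟨δ₂, a2, b2⟩ := ih (fun m h => w m (by omega)) p _ hp (den_dv hI hp)
  obtain ⟨γ, g0, g1, g2⟩ := cs_gap hI hp
  obtain ⟨δ, d0, d1, d2, d3⟩ : ∃ δ : ℝ, 0 < δ ∧ δ ≤ δ₁ ∧ 2 * δ ≤ δ₂ ∧ 2 * δ < γ :=
    ⟨min δ₁ (min δ₂ γ / 3), by positivity, min_le_left _ _, by
      linarith [min_le_right δ₁ (min δ₂ γ / 3), min_le_left δ₂ γ], by
      linarith [min_le_right δ₁ (min δ₂ γ / 3), min_le_right δ₂ γ]⟩
  have H1 := hB _ p I δ fun r h => (b1 r h).mono d1
  have H2 := ac0_of hA hV hF hH hp d0.le g1 g2 (by linarith) le_rfl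
    (hB _ p _ δ fun r h => (b2 r h).mono (by linarith))
  obtain ⟨v, V, v0, hv⟩ := w (N + 1) (by omega) δ d0
  obtain ⟨q, q0, hq⟩ := hI δ d0
  have pq : (0 : ℝ) < 2 * p * q := by positivity
  obtain ⟨η, h0, h1, h2⟩ := ex_small (Finset.univ : Finset Bool)
    (fun b => if b then 2 * p * q else 2 * p * q * (|V| + 1)) (fun b => if b then 1 else v) d0
  have h3 : η * (2 * p * q) < 1 := by simpa using h2 true
  have h4 : η * (2 * p * q * (|V| + 1)) < v := by simpa [v0] using h2 false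
  refine ⟨η, h0, fun n hn => ?_⟩
  rcases (Nat.lt_succ_iff.1 hn).lt_or_eq with x | rfl
  · exact (b1 n x).mono (h1.trans d1)
  intro K _ _ hK Λ Γ M hΛ bΛ hM pM hν lc co E
  by_contra e
  push Not at e
  have e0 : -1 < dsc (N + 1 + 1) Γ E := (lc E).lt_of_ne e.1.symm
  have e1 := e.2.trans h1
  have rk := fun X a b => exists_rk (X := X) (E := E) hH H1 H2 (by linarith) hK hΛ bΛ hM pM hν lc
    (fun P o => (co P o).mono h1) a b e0
  have k : ∀ T, T ≠ E → δ < dsc (N + 1 + 1) Γ T + 1 := fun T ne => not_le.1 fun t => by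
    obtain ⟨L, κ, M', G, U, h, r⟩ := rk {E, T} (by simp [e1, t]) (by simp)
    exact stepA hA hH hp g1 g2 d3 ((b2 N (by omega)).mono d2) hK ne r hM pM (by linarith) e1
      (by linarith [lc T]) t
  obtain ⟨L, κ, M', G, U, h, r⟩ := rk {E} (by simp [e1]) (by simp)
  obtain ⟨f, β, i, j, l⟩ := stepB hK hp q0 (by linarith) hq r hM pM (by linarith) e1 k
  obtain ⟨y, z⟩ := hv K hK κ f
  have u0 : 0 < 2 * p * q * (dsc (N + 1 + 1) Γ E + 1) := mul_pos pq (by linarith)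
  have u1 : 2 * p * q * (dsc (N + 1 + 1) Γ E + 1) ≤ 2 * p * q * η :=
    mul_le_mul_of_nonneg_left e.2 pq.le
  have u2 := pow_le_of_le_one u0.le (by linarith) (show N + 1 + 1 ≠ 0 by omega)
  have u3 := mul_le_mul_of_nonneg_left (y.trans (le_abs_self V)) (pow_pos u0 (N + 1 + 1)).le
  have u4 := mul_le_mul_of_nonneg_right (u2.trans u1) (abs_nonneg V)
  linarith [z β i j, mul_pos pq h0]

theorem gaf_of (hC : CURVE) (hB : FIB) (hA : ADJ) (hV : VERT) (hF : FOLH) (hH : HORP) {N : ℕ}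
    (w : ∀ m < N, WV m) : GAF N := fun p I hp hI =>
  let ⟨δ, a, b⟩ := ga_all hC hB hA hV hF hH N w p I hp hI
  ⟨δ, a, hB N p I δ b⟩

theorem acc_of (hC : CURVE) (hB : FIB) (hA : ADJ) (hV : VERT) (hF : FOLH) (hH : HORP) {N : ℕ}
    (w : ∀ m < N, WV m) : ACC N := fun p I hp hI => by
  obtain ⟨δ, a, b⟩ := ga_all hC hB hA hV hF hH N w p _ hp (den_dv hI hp)
  obtain ⟨γ, g0, g1, g2⟩ := cs_gap hI hp
  have m := lt_min a (half_pos g0)
  exact ⟨_, m, fun n hn => ac0_of hA hV hF hH hp m.le g1 g2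
    ((min_le_right _ _).trans_lt (half_lt_self g0)) hn
    (hB N p _ _ fun r h => (b r h).mono (min_le_left _ _))⟩

end gl

end Vale.Agent.P283B.Ga
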