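import Vale.Agent.P287D.St
import Vale.Agent.P287D.Ad.Df
import Vale.Agent.P283B.GaSt

/-!
# P283B: bounded complements in the language of b-divisors (definitions and statements)

`K` is a function field of dimension `n + 1`; `V Λ` is the variety, `V (mx s₀)` the base, the
point `z` of the base (closed or not) is the centre of a place `R₀`.
-/

set_option linter.unusedVariables false

open Set

noncomputable section

namespace Vale.Agent.P283B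

open P287D

section defs

variable {K : Type} [Field K] [Algebra ℂ K]

/-- the log discrepancy (`n` is the dimension of `K`) -/
def ld (n : ℕ) (Γ : BD K) (P : Pl K) : ℝ := dsc n Γ P + 1

/-- hyperstandard coefficients `1 - j / (q m)`; the set is closed under adjunction -/
def Phi (q : ℕ) : Set ℝ := {x | ∃ j m : ℕ, j ≤ q ∧ 0 < m ∧ x = 1 - j / (q * m)}

/-- the multiples of `1 / q` -/
def Frq (q : ℕ) : Set ℝ := {x | ∃ j : ℤ, x = j / q}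

/-- all places -/
abbrev All : Pl K → Prop := fun _ => True

/-- the centre of `P` on the base contains the centre of `R₀` -/
def Ov (s₀ : Finset K) (R₀ : Pl K) : Pl K → Prop := fun P => CLe (mx s₀) R₀ P

/-- the coefficients of the boundary on `V Λ` lie in `S` -/
def Cf (n : ℕ) (Λ Γ : BD K) (S : Set ℝ) (U : Pl K → Prop) : Prop :=
  ∀ P, On n Λ P → U P → 1 - ld (n + 1) Γ P ∈ S

/-- `ε`-lc; lc for `ε = 0` -/
def ELc (n : ℕ) (ε : ℝ) (Γ : BD K) (U : Pl K → Prop) : Prop := ∀ P, U P → ε ≤ ld (n + 1) Γ P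

/-- a pair on `V Λ` with a rational effective boundary -/
structure Pr (n : ℕ) (Λ Γ : BD K) : Prop where
  smp : Smp Λ
  big : Big Λ
  des : Dsc Λ Γ
  rat : CarQ Γ
  bdy : Bdy n Λ Γ

/-- `V Λ` is of Fano type over `V (mx s₀)` -/
structure FTo (n : ℕ) (Λ : BD K) (s₀ : Finset K) : Prop where
  smp : Smp Λ
  big : Big Λ
  des : Dsc Λ (mx s₀)
  ex : ∃ (Γ₀ : BD K) (c : ℝ), Klt (n + 1) Γ₀ ∧ Bdy n Λ Γ₀ ∧ Nef (c • mx s₀ - Γ₀) ∧
    Big (c • mx s₀ - Γ₀)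

/-- the setting: a pair of Fano type over the base, anti-nef over the base -/
structure Rel (n : ℕ) (Λ : BD K) (s₀ : Finset K) (Γ : BD K) : Prop where
  pr : Pr n Λ Γ
  ft : FTo n Λ s₀
  nef : ∃ c : ℝ, Nef (c • mx s₀ - Γ)

/-- `ε`-lc log Fano pairs, the coefficients are multiples of `1 / q` -/
structure LF (n : ℕ) (ε : ℝ) (q : ℕ) (Λ Γ : BD K) : Prop where
  pr : Pr n Λ Γ
  elc : ELc n ε Γ All
  cf : Cf n Λ Γ (Frq q) All
  amp : AmpOn Λ (-Γ)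

/-- `g` is a section of `-N Γ` -/
def Sc (N : ℕ) (Γ : BD K) (U : Pl K → Prop) (g : K) : Prop :=
  g ≠ 0 ∧ ∀ P, U P → (N : ℝ) * Γ P ≤ P.ord g

/-- `div g / N` is an lc `N`-complement of `Γ` -/
def LcC (n N : ℕ) (Γ : BD K) (U : Pl K → Prop) (g : K) : Prop :=
  Sc N Γ U g ∧ ∀ P, U P → (P.ord g : ℝ) ≤ N * (cn K (n + 1) P + 1)

/-- `div g / N` is a klt `N`-complement of `Γ` -/
def KlC (n N : ℕ) (Γ : BD K) (U : Pl K → Prop) (g : K) : Prop :=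
  Sc N Γ U g ∧ ∀ P, U P → (P.ord g : ℝ) < N * (cn K (n + 1) P + 1)

/-- the complete system of `β` is birational -/
def Bir (β : BD K) : Prop :=
  IntermediateField.adjoin ℂ {x | ∃ f g, Sec β f ∧ Sec β g ∧ x = f / g} = ⊤

/-- integral on `V Λ` -/
def ZOn (n : ℕ) (Λ β : BD K) : Prop := ∀ P, On n Λ P → ∃ z : ℤ, β P = z

end defs

/-- a statement for all function fields of dimension `n + 1` -/
def ForN (n : ℕ) (A : ∀ (K : Type) [Field K] [Algebra ℂ K], Prop) : Prop :=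
  ∀ (K : Type) [Field K] [Algebra ℂ K], FF K (n + 1) → A K

/-! ### tools -/

/-- **BERT**: the general member `G` of a system -/
def BERT : Prop := ForS fun n K _ _ => ∀ (Λ Ω Γ : BD K) (s : Finset K) (T : Set (Pl K)), Smp Λ →
  Big Λ → Smp Ω → Γ ∈ Car K → (∃ f ∈ s, f ≠ 0) → T.Finite →
  ∃ g ∈ Submodule.span ℂ (s : Set K), g ≠ 0 ∧ (∀ P ∈ T, (dv g + mx s) P = 0) ∧
    (∀ P, On n Λ P → (dv g + mx s) P = 0 ∨ ((dv g + mx s) P = 1 ∧ ld (n + 1) Γ P = 1)) ∧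
    ∀ (t : ℝ) (P : Pl K), 0 ≤ t → t ≤ 1 → (∀ P', CLe Ω P P' → 0 ≤ ld (n + 1) Γ P') →
      ∃ P', CLe Ω P P' ∧ min (ld (n + 1) Γ P') (1 - t) ≤ ld (n + 1) (Γ + t • (dv g + mx s)) P

/-- **EXTR**: extraction of finitely many places of log discrepancy at most one -/
def EXTR : Prop := ForS fun n K _ _ => ∀ (Λ Γ₀ : BD K) (c : ℝ) (T : Set (Pl K)), Smp Λ → Big Λ →
  Nef (c • Λ - Γ₀) → Bdy n Λ Γ₀ → Klt (n + 1) Γ₀ → T.Finite → (∀ P ∈ T, ld (n + 1) Γ₀ P ≤ 1) →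
  ∃ Λ', Smp Λ' ∧ Big Λ' ∧ QF n Λ' ∧ Dsc Λ' Λ ∧ ∀ P, On n Λ' P ↔ On n Λ P ∨ P ∈ T

/-- **FTM0**: the program for `D` on a variety of Fano type, the pseudo-effective case -/
def FTM0 : Prop := ForS fun n K _ _ => ∀ (Λ D : BD K) (s₀ : Finset K) (c : ℝ), FTo n Λ s₀ →
  QF n Λ → Dsc Λ D → CarQ D → Psef (D + c • mx s₀) →
  ∃ (Λ' D' : BD K) (c' : ℝ), FTo n Λ' s₀ ∧ QF n Λ' ∧ Hull n Λ' D D' ∧ CarQ D' ∧
    (∀ P, On n Λ' P ↔ On n Λ P ∧ D' P = D P) ∧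
    ∀ e, c' ≤ e → ZD (D + e • mx s₀) (D - D') ∧ Dsc (D' + e • mx s₀) (mx s₀)

/-- **FTM1**: the program for `D` on a variety of Fano type ends with a Mori fibre space -/
def FTM1 : Prop := ForS fun n K _ _ => ∀ (Λ D : BD K) (s₀ : Finset K), FTo n Λ s₀ →
  QF n Λ → Dsc Λ D → CarQ D → (∀ c : ℝ, ¬ Psef (D + c • mx s₀)) →
  ∃ (Λ' D' : BD K) (s₁ : Finset K) (m : ℝ), FTo n Λ' s₀ ∧ FTo n Λ' s₁ ∧ QF n Λ' ∧
    Hull n Λ' D D' ∧ CarQ D' ∧ D' ≤ D ∧ (∀ P, On n Λ' P → On n Λ P) ∧ Dsc (mx s₁) (mx s₀) ∧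
    ¬ Big (mx s₁) ∧ AmpOn Λ' (m • mx s₁ - D') ∧ ∀ β, Dsc Λ' β → ∃ a : ℝ, Dsc (mx s₁) (β - a • D')

/-- **FGEN**: the sections near a point of the base are a finite module -/
def FGEN : Prop := ForS fun n K _ _ => ∀ (β : BD K) (s₀ : Finset K) (R₀ : Pl K), β ∈ Car K →
  ∃ s : Finset K, (∀ f ∈ s, f ≠ 0 ∧ ∀ P, Ov s₀ R₀ P → 0 ≤ P.ord f + β P) ∧
    ∀ g, g ≠ 0 → (∀ P, Ov s₀ R₀ P → 0 ≤ P.ord g + β P) → ∀ P, Ov s₀ R₀ P →
      ∃ f ∈ s, P.ord f ≤ P.ord g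

/-- **SPR**: a section near a generalisation of the point spreads out -/
def SPR : Prop := ForS fun n K _ _ => ∀ (β : BD K) (s₀ : Finset K) (R₀ R : Pl K) (g : K),
  β ∈ Car K → Ov s₀ R₀ R → g ≠ 0 → (∀ P, Ov s₀ R P → 0 ≤ P.ord g + β P) →
  ∃ h ∈ fld (mx s₀), h ≠ 0 ∧ (∀ P, Ov s₀ R P → P.ord h = 0) ∧
    ∀ P, Ov s₀ R₀ P → 0 ≤ P.ord (h * g) + β P

/-- **GFD**: sections on the geometric generic fibre come from sections over the generic point -/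
def GFD : Prop := ∀ n : ℕ, ForH fun K K' _ _ _ _ φ => ∀ L, GF L φ → FF K n → ∀ β ∈ Car K,
  ∀ g' : K', g' ≠ 0 → Sec (pb φ β) g' → ∀ P' P, Lies φ P' P →
    ∃ g : K, g ≠ 0 ∧ (∀ Q, Hor L Q → 0 ≤ Q.ord g + β Q) ∧ P.ord g ≤ P'.ord g'

/-! ### the known theorems, dimension `n + 1` -/

/-- **LCG**: lc complements, the global case -/
def LCG (n : ℕ) : Prop := ∀ q : ℕ, 0 < q → ∃ N : ℕ, 0 < N ∧ ForN n fun K _ _ => ∀ Λ Γ : BD K,
  Rel n Λ ∅ Γ → Cf n Λ Γ (Phi q) All → ELc n 0 Γ All → ∃ g, LcC n N Γ All g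

/-- **LCV**: lc complements over a point which is not the generic point of the base -/
def LCV (n : ℕ) : Prop := ∀ q : ℕ, 0 < q → ∃ N : ℕ, 0 < N ∧ ForN n fun K _ _ =>
  ∀ (Λ Γ : BD K) (s₀ : Finset K) (R₀ : Pl K), Rel n Λ s₀ Γ → ¬ Hor (fld (mx s₀)) R₀ →
    Cf n Λ Γ (Phi q) (Ov s₀ R₀) → ELc n 0 Γ (Ov s₀ R₀) → ∃ g, LcC n N Γ (Ov s₀ R₀) g

/-- **LC**: lc complements over any point of the base -/
def LC (n : ℕ) : Prop := ∀ q : ℕ, 0 < q → ∃ N : ℕ, 0 < N ∧ ForN n fun K _ _ =>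
  ∀ (Λ Γ : BD K) (s₀ : Finset K) (R₀ : Pl K), Rel n Λ s₀ Γ →
    Cf n Λ Γ (Phi q) (Ov s₀ R₀) → ELc n 0 Γ (Ov s₀ R₀) → ∃ g, LcC n N Γ (Ov s₀ R₀) g

/-- **LCP**: lifting of complements from a place `S` over a closed point of the base, which is an
lc place of `Γ` and the only place which is not klt for an auxiliary generalised pair `Γ₁` -/
def LCP (n : ℕ) : Prop := ∀ q : ℕ, 0 < q → ∃ N : ℕ, 0 < N ∧ ForN n fun K _ _ =>
  ∀ (Λ Γ Γ₁ : BD K) (s₀ : Finset K) (S : Pl K) (c : ℝ), Rel n Λ s₀ Γ →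
    res S (mx s₀) ∈ Prn S.κ → Cf n Λ Γ (Phi q) (Ov s₀ S) → ELc n 0 Γ (Ov s₀ S) →
    ld (n + 1) Γ S = 0 → Nef (c • mx s₀ - Γ₁) → Big (res S (c • mx s₀ - Γ₁)) →
    Big (c • mx s₀ - Γ₁) → Bdy n Λ Γ₁ → ld (n + 1) Γ₁ S = 0 →
    (∀ P, P ≠ S → Ov s₀ S P → 0 < ld (n + 1) Γ₁ P) →
    (∀ P, On n Λ P → Ov s₀ S P → Γ P ≤ Γ₁ P ∨ 1 - ld (n + 1) Γ P ∈ Frq q) →
    ∃ g, LcC n N Γ (Ov s₀ S) g

/-- **LCA**: lc complements of klt log Fano pairs which are not exceptional -/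
def LCA (n : ℕ) : Prop := ∀ q : ℕ, 0 < q → ∃ N : ℕ, 0 < N ∧ ForN n fun K _ _ => ∀ Λ Γ G : BD K,
  Pr n Λ Γ → Klt (n + 1) Γ → AmpOn Λ (-Γ) → Cf n Λ Γ (Phi q) All → ∀ t : ℝ, 0 ≤ t → t < 1 →
    Rep (-Γ) G → ¬ Klt (n + 1) (Γ + t • G) → ∃ g, LcC n N Γ All g

/-- **EB**: effective birationality -/
def EB (n : ℕ) : Prop := ∀ (ε : ℝ) (q : ℕ), 0 < ε → 0 < q → ∃ m : ℕ, 0 < m ∧ ForN n fun K _ _ =>
  ∀ Λ Γ N : BD K, Pr n Λ Γ → ELc n ε Γ All → Cf n Λ Γ (Frq q) All → AmpOn Λ N → CarQ N →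
    ZOn n Λ N → Psef (N - Γ) → Psef (N + Γ) → Bir ((m : ℝ) • N)

/-- **VB**: the volume is bounded -/
def VB (n : ℕ) : Prop := ∀ (ε : ℝ) (q : ℕ), 0 < ε → 0 < q → ∃ v : ℝ, ForN n fun K _ _ =>
  ∀ Λ Γ : BD K, LF n ε q Λ Γ → vol (n + 1) (-Γ) ≤ v

/-- **ALPHA**: the global log canonical threshold is bounded below -/
def ALPHA (n : ℕ) : Prop := ∀ (ε : ℝ) (q : ℕ), 0 < ε → 0 < q → ∃ t : ℝ, 0 < t ∧
  ForN n fun K _ _ => ∀ Λ Γ G : BD K, LF n ε q Λ Γ → Rep (-Γ) G → ∀ P, t * G P ≤ ld (n + 1) Γ P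

/-- **LCF**: lc complements of `ε`-lc log Fano pairs -/
def LCF (n : ℕ) : Prop := ∀ (ε : ℝ) (q : ℕ), 0 < ε → 0 < q → ∃ N : ℕ, 0 < N ∧ ForN n fun K _ _ =>
  ∀ Λ Γ : BD K, LF n ε q Λ Γ → ∃ g, LcC n N Γ All g

/-- **KLT**: klt complements of `ε`-lc log Fano pairs -/
def KLT (n : ℕ) : Prop := ∀ (ε : ℝ) (q : ℕ), 0 < ε → 0 < q → ∃ N : ℕ, 0 < N ∧ ForN n fun K _ _ =>
  ∀ Λ Γ : BD K, LF n ε q Λ Γ → ∃ g, KlC n N Γ All g

/-- **SA**: boundedness; a fixed multiple of the anti-log-canonical divisor is free -/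
def SA (n : ℕ) : Prop := ∀ (ε : ℝ) (q : ℕ), 0 < ε → 0 < q → ∃ m : ℕ, 0 < m ∧ ForN n fun K _ _ =>
  ∀ Λ Γ : BD K, Rel n Λ ∅ Γ → ELc n ε Γ All → Cf n Λ Γ (Frq q) All →
    ∃ s : Finset K, (∃ f ∈ s, f ≠ 0) ∧ mx s = (m : ℝ) • -Γ

/-- **MS**: the conjecture of McKernan and Shokurov, for the places over a place of the base -/
def MS (n : ℕ) : Prop := ∀ (ε : ℝ) (q : ℕ), 0 < ε → 0 < q → ∃ δ : ℝ, 0 < δ ∧ ForN n fun K _ _ =>
  ∀ (Λ Γ : BD K) (s₀ : Finset K) (P : Pl K) (Q : Pl (fld (mx s₀))), Rel n Λ s₀ Γ →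
    Lies (inc (fld (mx s₀))) P Q → Cf n Λ Γ (Frq q) (Ov s₀ P) → ELc n ε Γ (Ov s₀ P) →
    δ * P.ord (inc (fld (mx s₀)) Q.t) ≤ ld (n + 1) Γ P

/-! ### the new step and the theorem -/

/-- a class of points of bases -/
abbrev Bs := ∀ (K : Type) [Field K] [Algebra ℂ K], Finset K → Pl K → Prop

/-- **LL**: a function on the base which vanishes at the point and has a large threshold -/
def LL (C : Bs) (n : ℕ) : Prop := ∀ (ε : ℝ) (q : ℕ), 0 < ε → 0 < q → ∃ k : ℕ, 0 < k ∧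
  ForN n fun K _ _ => ∀ (Λ Γ : BD K) (s₀ : Finset K) (R₀ : Pl K), Rel n Λ s₀ Γ → C K s₀ R₀ →
    ¬ Hor (fld (mx s₀)) R₀ → Cf n Λ Γ (Frq q) (Ov s₀ R₀) → ELc n ε Γ (Ov s₀ R₀) →
    ∃ h ∈ fld (mx s₀), h ≠ 0 ∧ 0 < R₀.ord h ∧
      ∀ P, Ov s₀ R₀ P → 0 ≤ P.ord h ∧ (P.ord h : ℝ) ≤ k * ld (n + 1) Γ P

/-- **Q1F**: bounded klt complements over the points all of whose generalisations are in `C` -/
def Q1F (C : Bs) (n : ℕ) : Prop := ∀ (ε : ℝ) (q : ℕ), 0 < ε → 0 < q → ∃ N : ℕ, 0 < N ∧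
  ForN n fun K _ _ => ∀ (Λ Γ : BD K) (s₀ : Finset K) (R₀ : Pl K), Rel n Λ s₀ Γ →
    (∀ P, Ov s₀ R₀ P → C K s₀ P) → Cf n Λ Γ (Frq q) (Ov s₀ R₀) → ELc n ε Γ (Ov s₀ R₀) →
    ∃ g, KlC n N Γ (Ov s₀ R₀) g

/-! ### the steps of the induction -/

/-- below `n` -/
def Lt (A : ℕ → Prop) (n : ℕ) : Prop := ∀ m < n, A m

/-- up to `n` -/
def Le (A : ℕ → Prop) (n : ℕ) : Prop := ∀ m ≤ n, A m

/-- block LC, lifting from a plt divisor -/
def SLCP : Prop := ∀ n, Lt LC n → LCP n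

/-- block LC, the relative case -/
def SLCV : Prop := ∀ n, Lt LC n → LCP n → Ga.ACC n → Ga.GAF n → LCV n

/-- block LC, the case which is not exceptional -/
def SLCA : Prop := ∀ n, Lt LC n → LCP n → LCA n

/-- block EB -/
def SEB : Prop := ∀ n, EB n

/-- block VOL: not exceptional or any section -/
def SLCF : Prop := ∀ n, LCA n → EB n → LCF n

/-- block VOL -/
def SVB : Prop := ∀ n, LCF n → Le EB n → Lt ALPHA n → Lt VB n → VB n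

/-- block MONO -/
def SALPHA : Prop := ∀ n, LCP n → LCV n → LCA n → LCF n → EB n → VB n → ALPHA n

/-- block VOL -/
def SKLT : Prop := ∀ n, LCF n → EB n → VB n → ALPHA n → KLT n

/-- block VOL -/
def SSA : Prop := ∀ n, EB n → VB n → KLT n → SA n

/-- block ACC -/
def SWV : Prop := ∀ n, EB n → VB n → KLT n → SA n → Ga.WV n

/-- block ACC -/
def SGA : Prop := ∀ n, Lt Ga.WV n → Ga.GAF n ∧ Ga.ACC n

/-- block MONO -/
def SMS : Prop := ∀ n, LCP n → LCV n → Ga.GAF n → Ga.ACC n → Lt EB n → Lt VB n → Lt ALPHA n →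
  Lt KLT n → Lt SA n → Lt MS n → MS n

/-- block LC, the global case -/
def SLCG : Prop := ∀ n, Lt LC n → LCP n → LCV n → LCA n → Le EB n → Le VB n → Le ALPHA n →
  Le KLT n → Le SA n → Le Ga.WV n → Ga.GAF (n + 1) → Ga.ACC (n + 1) → Le MS n → LCG n

/-- block ASM -/
def SLC : Prop := ∀ n, Le LCG n → LCV n → LC n

/-- block ASM -/
def SQ1 : Prop := ∀ C n, LC n → Le SA n → LL C n → Q1F C n

/-- everything in one dimension -/
structure Pack (n : ℕ) : Prop where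
  lc : LC n
  lcg : LCG n
  eb : EB n
  vb : VB n
  alpha : ALPHA n
  klt : KLT n
  sa : SA n
  wv : Ga.WV n
  ms : MS n

theorem Le.of {A : ℕ → Prop} {n : ℕ} (h : Lt A n) (h' : A n) : Le A n := fun m hm => by
  rcases hm.lt_or_eq with a | rfl
  exacts [h m a, h']

theorem pack (lcp : SLCP) (lcv : SLCV) (lca : SLCA) (eb : SEB) (lcf : SLCF) (vb : SVB)
    (al : SALPHA) (klt : SKLT) (sa : SSA) (wv : SWV) (ga : SGA) (ms : SMS) (lcg : SLCG)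
    (lc : SLC) (n : ℕ) : Pack n := by
  induction n using Nat.strong_induction_on with
  | _ n ih =>
    have l : Lt LC n := fun m h => (ih m h).lc
    have p := lcp n l
    have d := ga n fun m h => (ih m h).wv
    have v := lcv n l p d.2 d.1
    have a := lca n l p
    have f := lcf n a (eb n)
    have b := vb n f (fun m _ => eb m) (fun m h => (ih m h).alpha) fun m h => (ih m h).vb
    have c := al n p v a f (eb n) b
    have t := klt n f (eb n) b c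
    have s := sa n (eb n) b t
    have w : Le Ga.WV n := Le.of (fun m h => (ih m h).wv) (wv n (eb n) b t s)
    have g := ga (n + 1) fun m h => w m (Nat.lt_succ_iff.1 h)
    have m := ms n p v d.1 d.2 (fun m _ => eb m) (fun m h => (ih m h).vb)
      (fun m h => (ih m h).alpha) (fun m h => (ih m h).klt) (fun m h => (ih m h).sa)
      fun m h => (ih m h).ms
    have k := lcg n l p v a (fun m _ => eb m) (Le.of (fun m h => (ih m h).vb) b)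
      (Le.of (fun m h => (ih m h).alpha) c) (Le.of (fun m h => (ih m h).klt) t)
      (Le.of (fun m h => (ih m h).sa) s) w g.1 g.2 (Le.of (fun m h => (ih m h).ms) m)
    exact ⟨lc n (Le.of (fun m h => (ih m h).lcg) k) v, k, eb n, b, c, t, s, w n le_rfl, m⟩

theorem q1f (p : ∀ n, Pack n) (q : SQ1) (C : Bs) (n : ℕ) (h : LL C n) : Q1F C n :=
  q C n (p n).lc (fun m _ => (p m).sa) h

end Vale.Agent.P283B
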