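import Vale.Agent.P283B.Asm.Ax
import Vale.Agent.P283B.ACC.Sga
import Vale.Agent.P283B.ACC.Wv
import Vale.Agent.P283B.BR.All
import Vale.Agent.P283B.EB.Cn2
import Vale.Agent.P283B.EB.Lim2
import Vale.Agent.P283B.EB.Deg
import Vale.Agent.P283B.EB.Adj
import Vale.Agent.P283B.EB.Gfb
import Vale.Agent.P283B.EB.Mult
import Vale.Agent.P283B.EB.Pbu
import Vale.Agent.P283B.EB.Sep
import Vale.Agent.P283B.LC.Glx
import Vale.Agent.P283B.LC.Plt
import Vale.Agent.P283B.MONO.Ms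
import Vale.Agent.P283B.VOL.All
import Vale.Agent.P283B.VOL.Svb
import Vale.Agent.P283B.VOL.Sb
import Vale.Agent.P283B.VOL.Vbc

/-!
# P283B: the assembly
-/

open AlgebraicGeometry CategoryTheory

namespace Vale.Agent.P283B

open P287D

theorem knAll (n : ℕ) : Eb.KN n :=
  Eb.kn_of Eb.wpx (Eb.lim_of In.hy Api.mod Api.neg U.ua (Eb.deg U.hb) (Eb.hn U.hb)) n

theorem sebOf (h : ∀ n, Lg.EBN n) : SEB := fun n ε q a b =>
  let ⟨m, c, d⟩ := h n ε q a b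
  ⟨m, c, fun K _ _ hK Λ Γ N p e f g => d K hK Λ Γ N p e f g.1 g.smp (g.big_iff.1 p.big)⟩

theorem packOf (hc : Eb.CUTN) (hv : Vo.VBCUT) (hs : SSA) : ∀ n, Pack n :=
  pack (slcp extr ftm0) (slcv_of (slcs extr ftm0)) (slca_of (slcs extr ftm0))
    (sebOf fun n => hc n (knAll n)) Vo.slcf (Vb.svb_of Eb.wpx Vo.core hv) Vo.salpha Vo.sklt hs
    (Wv.swv Api.mod Api.int Api.vol Api.neg) sga sms (Lg.slcg_of fun n => hc n (knAll n)) slc

theorem cutnAll : Eb.CUTN :=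
  Eb.cutn_of Eb.pbu Eb.mult Eb.adjle Eb.sep (Eb.Gb.gfb_of Eb.pbu Eb.sepl)

/-- bounded lc complements, boundedness, thresholds and multiplicities in every dimension -/
theorem packAll : ∀ n, Pack n := packOf cutnAll (Vo.vbcut_of Eb.pbu Eb.mult Eb.adjle) Vs.ssa

theorem q1_of (p : ∀ n, Pack n) {c : ∀ Z : Lit.QV, P289.Pt Z.X → Prop} {C : Bs}
    (h : ∀ n, LL C n) (hL : Br.Lcl C) (hC : Br.Cmp c C) : Lit.Q1For c :=
  Br.bridge hL hC fun n => q1f p sq1 C n (h n)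

theorem q1_smo (p : ∀ n, Pack n) (h : ∀ n, LL Smo n) :
    Lit.Q1For fun Z z => ∃ V : Z.X.Opens, z ∈ V ∧ Smooth (V.ι ≫ Z.str) :=
  Br.bridge_smo fun n => q1f p sq1 Smo n (h n)

theorem q1_all (p : ∀ n, Pack n) (h : ∀ n, LL (fun _ _ _ _ _ => True) n) : Lit.Q1 :=
  Br.bridge_all fun n => q1f p sq1 _ n (h n)

end Vale.Agent.P283B
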