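import Vale.Agent.P283B.AllN
import Vale.Agent.P283B.LL.BrNd

/-!
# P283B: bounded klt complements
-/

namespace Vale.Agent.P283B

theorem q1All : Lit.Q1 := q1_nad Bq.nad

end Vale.Agent.P283B
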