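import Vale.Agent.P283B.AllS
import Vale.Agent.P283B.BR.Ml
import Vale.Agent.P283B.LM.Ber
import Vale.Agent.P283B.LM.Berg
import Vale.Agent.P283B.LM.Bri
import Vale.Agent.P283B.LM.Chart
import Vale.Agent.P283B.LM.Comp
import Vale.Agent.P283B.LM.Diag
import Vale.Agent.P283B.LM.Dif
import Vale.Agent.P283B.LM.Eta
import Vale.Agent.P283B.LM.Gen
import Vale.Agent.P283B.LM.Hart
import Vale.Agent.P283B.LM.Jn
import Vale.Agent.P283B.LM.Key
import Vale.Agent.P283B.LM.Ovr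
import Vale.Agent.P283B.LM.Pert
import Vale.Agent.P283B.LM.Ram
import Vale.Agent.P283B.LM.Rnd
import Vale.Agent.P283B.LM.Sll
import Vale.Agent.P283B.LM.Slm
import Vale.Agent.P283B.LM.Split
import Vale.Agent.P283B.LM.Step

/-!
# P283B: base points of bounded multiplicity
-/

namespace Vale.Agent.P283B

theorem towerMlt : Lm.TOWER :=
  Lm.tower_of Ls.np0 Ls.ev_ok Ls.aw Ls.mult Lm.comp Lm.keys Lm.step Lm.rounds

theorem llMlt (c n : ℕ) : LL (Mlt c) n :=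
  Lm.ll_of towerMlt Ls.ot Ls.real bert (Ls.spw Ls.ot) Lm.gen Lm.hart Lm.ram Lm.dif Lm.diag Lm.split
    Lm.pert Lm.ovr Lm.schart Lm.sberg Lm.bri Lm.sber Lm.seta Lm.sjn Lm.slm Lm.sll c n (packAll n).ms

theorem q1Mlt (c n : ℕ) : Q1F (Mlt c) n := q1f packAll sq1 (Mlt c) n (llMlt c n)

end Vale.Agent.P283B
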