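import Vale.Agent.P283B.All
import Vale.Agent.P283B.LL.BrAl
import Vale.Agent.P283B.LL.Cone
import Vale.Agent.P283B.LL.Drop
import Vale.Agent.P283B.LL.Gf
import Vale.Agent.P283B.LL.Gq
import Vale.Agent.P283B.LL.Jmp
import Vale.Agent.P283B.LL.Pig
import Vale.Agent.P283B.LL.Tor
import Vale.Agent.P283B.SP.All

/-!
# P283B: the conjecture from the approximation theorem
-/

namespace Vale.Agent.P283B

theorem core_nad (na : Bq.NAD) (n : ℕ) : Lr.CORE (n + 1) :=
  Lz.core_of (Lh.spig Lh.gq _ (packAll _).lc) (Sp.cp_jmp Lj.jmp n) (Bq.fin_of na _)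

theorem ll_nad (na : Bq.NAD) (n : ℕ) : LL (fun _ _ _ _ _ => True) n :=
  Lr.sdrop Lr.exl n (packAll n).lc (Lr.sgf n fun m _ =>
    Lr.sprod Lr.tor m (Lr.scone Lr.tor (m + 1) (core_nad na (m + 1))))

theorem q1_nad (na : Bq.NAD) : Lit.Q1 := q1_all packAll (ll_nad na)

end Vale.Agent.P283B
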