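import Vale.Agent.P283B.All
import Vale.Agent.P283B.LS.Berg
import Vale.Agent.P283B.LS.Bri
import Vale.Agent.P283B.LS.Comp
import Vale.Agent.P283B.LS.Diag
import Vale.Agent.P283B.LS.Eta
import Vale.Agent.P283B.LS.Key
import Vale.Agent.P283B.LS.Mult
import Vale.Agent.P283B.LS.Np
import Vale.Agent.P283B.LS.Ot
import Vale.Agent.P283B.LS.Real
import Vale.Agent.P283B.LS.Rnd
import Vale.Agent.P283B.LS.Sll
import Vale.Agent.P283B.LS.Slm
import Vale.Agent.P283B.LS.Spw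
import Vale.Agent.P283B.LS.Step
import Vale.Agent.P283B.LS.Unr

/-!
# P283B: smooth points of the base
-/

open AlgebraicGeometry CategoryTheory

namespace Vale.Agent.P283B

theorem towerAll : Ls.TOWER :=
  Ls.tower_of Ls.np0 Ls.ev_ok Ls.aw Ls.mult Ls.comp Ls.keys Ls.step Ls.rounds

theorem llSmo (n : ℕ) : LL Smo n :=
  Ls.ll_of towerAll Ls.ot Ls.diag Ls.real bert Ls.unr Ls.sberg Ls.bri Ls.spw Ls.seta Ls.slm Ls.sll
    n (packAll n).ms

theorem q1Smooth : Lit.Q1For fun Z z => ∃ V : Z.X.Opens, z ∈ V ∧ Smooth (V.ι ≫ Z.str) :=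
  q1_smo packAll llSmo

end Vale.Agent.P283B
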