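import Vale.Agent.P283B.GaSt
import Vale.Agent.P287D.Ad.Df

/-!
# P283B, block GA: the arithmetic of the coefficients; the statements of the leaves
-/

set_option linter.unusedVariables false

open Set
open Vale.Agent.P287D

noncomputable section

namespace Vale.Agent.P283B.Ga

section ar

variable {I : Set ℝ} {p : ℕ} {s δ δ' a : ℝ}

/-- sums of coefficients -/
def Cs (I : Set ℝ) (p : ℕ) : AddSubmonoid ℝ :=
  AddSubmonoid.closure ({x | ∃ i ∈ I, i ≤ 1 ∧ x = 1 - i} ∪ {(p : ℝ)⁻¹})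

/-- the derived set -/
def Dv (I : Set ℝ) (p : ℕ) : Set ℝ := {a | ∃ r : ℕ, 0 < r ∧ ∃ s ∈ Cs I p, a = (1 - s) / r}

theorem Co.mono (h : Co I δ a) (e : δ ≤ δ') : Co I δ' a :=
  ⟨h.1, h.2.imp_right (Or.imp_right fun k => k.trans e)⟩

theorem cs_nn (h : s ∈ Cs I p) : 0 ≤ s := by
  induction h using AddSubmonoid.closure_induction with
  | mem x hx =>
    rcases hx with ⟨i, -, b, rfl⟩ | rfl
    · linarith
    · positivity
  | zero => exact le_rfl
  | add _ _ _ _ a b => exact add_nonneg a b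

theorem cs_den (hI : Den I) (hp : 0 < p) {d : ℝ} (hd : 0 < d) :
    ∃ q : ℕ, 0 < q ∧ ∀ s ∈ Cs I p, s ≤ 1 - d → ∃ z : ℤ, (q : ℝ) * s = z := by
  obtain ⟨q, q0, hq⟩ := hI d hd
  have p0 : (p : ℝ) ≠ 0 := Nat.cast_ne_zero.2 hp.ne'
  refine ⟨q * p, Nat.mul_pos q0 hp, fun s hs => ?_⟩
  induction hs using AddSubmonoid.closure_induction with
  | mem x hx =>
    rcases hx with ⟨i, a, -, rfl⟩ | rfl
    · intro k
      obtain ⟨z, hz⟩ := hq i a (by linarith)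
      exact ⟨q * p - p * z, by push_cast; rw [← hz]; ring⟩
    · exact fun _ => ⟨q, by push_cast; field_simp⟩
  | zero => exact fun _ => ⟨0, by simp⟩
  | add x y hx hy a b =>
    intro k
    obtain ⟨z, hz⟩ := a (by linarith [cs_nn hy])
    obtain ⟨w, hw⟩ := b (by linarith [cs_nn hx])
    exact ⟨z + w, by rw [mul_add, hz, hw]; push_cast; ring⟩

theorem den_dv (hI : Den I) (hp : 0 < p) : Den (Dv I p) := fun d hd => by
  obtain ⟨q, q0, hq⟩ := cs_den hI hp hd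
  obtain ⟨R, hR⟩ := exists_nat_ge d⁻¹
  refine ⟨q * R.factorial, Nat.mul_pos q0 R.factorial_pos, ?_⟩
  rintro _ ⟨r, r0, s, hs, rfl⟩ k
  have r1 : (1 : ℝ) ≤ r := Nat.one_le_cast.2 r0
  have k' := (le_div_iff₀ (by linarith)).1 k
  obtain ⟨z, hz⟩ := hq s hs (by nlinarith)
  have rR : r ≤ R := by
    have : (r : ℝ) ≤ d⁻¹ := by
      rw [le_inv_comm₀ (by linarith) hd, inv_eq_one_div, le_div_iff₀ (by linarith)]
      linarith [cs_nn hs]
    exact_mod_cast this.trans hR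
  obtain ⟨c, hc⟩ := Nat.dvd_factorial r0 rR
  refine ⟨(q - z) * c, ?_⟩
  rw [hc]
  push_cast
  rw [← hz]
  field_simp

theorem cs_gap (hI : Den I) (hp : 0 < p) :
    ∃ γ : ℝ, 0 < γ ∧ γ ≤ 1 / 2 ∧ ∀ s ∈ Cs I p, s < γ → s = 0 := by
  obtain ⟨q, q0, hq⟩ := cs_den hI hp one_half_pos
  have q1 : (0 : ℝ) < q := Nat.cast_pos.2 q0
  refine ⟨min (1 / 2) (q : ℝ)⁻¹, lt_min one_half_pos (inv_pos.2 q1), min_le_left _ _,
    fun s hs k => ?_⟩
  obtain ⟨z, hz⟩ := hq s hs (by linarith [k.trans_le (min_le_left _ _)])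
  have a : (0 : ℝ) ≤ z := hz ▸ mul_nonneg q1.le (cs_nn hs)
  have b : (z : ℝ) < 1 := by
    rw [← hz]
    have := mul_lt_mul_of_pos_left (k.trans_le (min_le_right _ _)) q1
    rwa [mul_inv_cancel₀ q1.ne'] at this
  have c : z = 0 := by
    have a' : 0 ≤ z := by exact_mod_cast a
    have b' : z < 1 := by exact_mod_cast b
    omega
  rw [c, Int.cast_zero] at hz
  exact (mul_eq_zero.1 hz).resolve_left q1.ne'

theorem cs_term (h : Co I δ a) (k : δ < a) (c : ℕ) : c * (1 - a) ∈ Cs I p := by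
  rw [← nsmul_eq_mul]
  refine nsmul_mem ?_ c
  rcases h.2 with rfl | e | e
  · simp
  · exact AddSubmonoid.subset_closure (.inl ⟨a, e, h.1, rfl⟩)
  · exact absurd e k.not_ge

theorem cs_p (c : ℕ) : (c : ℝ) / p ∈ Cs I p := by
  rw [div_eq_mul_inv, ← nsmul_eq_mul]
  exact nsmul_mem (AddSubmonoid.subset_closure (.inr rfl)) c

/-- the coefficient of a different -/
theorem co_dv {ι : Type*} {U : Finset ι} {A : ι → ℝ} {c : ι → ℕ} {c₀ r : ℕ} (r0 : 0 < r)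
    (y : 0 ≤ δ) (co : ∀ R ∈ U, c R ≠ 0 → Co I δ (A R))
    (e : a = (1 - (∑ R ∈ U, c R * (1 - A R) + c₀ / p)) / r) : Co (Dv I p) δ a := by
  have r1 : (1 : ℝ) ≤ r := Nat.one_le_cast.2 r0
  have nn : ∀ R ∈ U, 0 ≤ c R * (1 - A R) := fun R hR => by
    by_cases z : c R = 0
    · simp [z]
    · exact mul_nonneg (Nat.cast_nonneg _) (sub_nonneg.2 (co R hR z).1)
  have n0 : (0 : ℝ) ≤ c₀ / p := by positivity
  have n1 := Finset.sum_nonneg nn
  refine ⟨e ▸ (div_le_iff₀ (by linarith)).2 (by linarith), .inr ?_⟩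
  by_cases k : ∃ R ∈ U, c R ≠ 0 ∧ A R ≤ δ
  · obtain ⟨R, hR, z, k⟩ := k
    have b := Finset.single_le_sum nn hR
    have c1 : (1 : ℝ) ≤ c R := Nat.one_le_cast.2 (Nat.pos_of_ne_zero z)
    have b' := sub_nonneg.2 (co R hR z).1
    have w : 1 - (∑ R ∈ U, c R * (1 - A R) + c₀ / p) ≤ δ := by nlinarith
    rcases le_or_gt 0 (1 - (∑ R ∈ U, c R * (1 - A R) + c₀ / p)) with x | x
    · exact .inr (e ▸ (div_le_self x r1).trans w)
    · exact .inr (e ▸ (div_neg_of_neg_of_pos x (by linarith)).le.trans y)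
  · push Not at k
    refine .inl ⟨r, r0, _, add_mem (sum_mem fun R hR => ?_) (cs_p c₀), e⟩
    by_cases z : c R = 0
    · simp [z]
    · exact cs_term (co R hR z) (k R hR z) _

/-- a coefficient near one survives in the different -/
theorem pos_dv {ι : Type*} {U : Finset ι} {A : ι → ℝ} {c : ι → ℕ} {c₀ r : ℕ} (r0 : 0 < r) {γ : ℝ}
    (g1 : γ ≤ 1 / 2) (g2 : ∀ s ∈ Cs I p, s < γ → s = 0) (hδ : δ < γ)
    (co : ∀ R ∈ U, c R ≠ 0 → Co I δ (A R))
    (e : a = (1 - (∑ R ∈ U, c R * (1 - A R) + c₀ / p)) / r) (a0 : 0 ≤ a) {R : ι} (hR : R ∈ U)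
    (z : c R ≠ 0) (h0 : 0 < A R) (h1 : A R ≤ δ) : 0 < a ∧ a ≤ δ := by
  classical
  have r1 : (1 : ℝ) ≤ r := Nat.one_le_cast.2 r0
  have nn : ∀ R ∈ U, 0 ≤ c R * (1 - A R) := fun R hR => by
    by_cases z : c R = 0
    · simp [z]
    · exact mul_nonneg (Nat.cast_nonneg _) (sub_nonneg.2 (co R hR z).1)
  have n0 : (0 : ℝ) ≤ c₀ / p := by positivity
  have one : ∀ R, c R ≠ 0 → A R ≤ δ → 1 - A R ≤ c R * (1 - A R) := fun R z k => by
    have c1 : (1 : ℝ) ≤ c R := Nat.one_le_cast.2 (Nat.pos_of_ne_zero z)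
    nlinarith
  rw [← Finset.add_sum_erase _ _ hR] at e
  have nn' : ∀ R' ∈ U.erase R, 0 ≤ c R' * (1 - A R') := fun R' k => nn R' (Finset.mem_of_mem_erase k)
  have n1 := Finset.sum_nonneg nn'
  have x : 0 ≤ 1 - (c R * (1 - A R) + ∑ R ∈ U.erase R, c R * (1 - A R) + c₀ / p) := by
    have := mul_nonneg a0 (zero_le_one.trans r1)
    rwa [e, div_mul_cancel₀ _ (by linarith)] at this
  have y := one R z h1
  have m : ∑ R ∈ U.erase R, c R * (1 - A R) + c₀ / p ∈ Cs I p := by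
    refine add_mem (sum_mem fun R' k => ?_) (cs_p c₀)
    by_cases z' : c R' = 0
    · simp [z']
    refine cs_term (co R' (Finset.mem_of_mem_erase k) z') (not_le.1 fun w => ?_) _
    linarith [Finset.single_le_sum nn' k, one R' z' w]
  have s0 := g2 _ m (by linarith)
  have c1 : c R = 1 := by
    by_contra w
    have : (2 : ℝ) ≤ c R := by exact_mod_cast (by omega : 2 ≤ c R)
    nlinarith
  rw [add_assoc, s0, c1] at e
  have e' : a = A R / r := by rw [e]; simp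
  exact ⟨e' ▸ div_pos h0 (by linarith), e' ▸ (div_le_self h0.le r1).trans h1⟩

end ar

/-- **CURVE**: global ACC on curves -/
def CURVE : Prop := ∀ (p : ℕ) (I : Set ℝ), 0 < p → Den I → ∃ δ : ℝ, 0 < δ ∧ GA0 0 p I δ

/-- **FIB**: restriction to the geometric generic fibre -/
def FIB : Prop := ∀ (N p : ℕ) (I : Set ℝ) (δ : ℝ), (∀ r < N, GA0 r p I δ) → GAR N p I δ

/-- **HORP**: a divisor which is big over the base has a horizontal component -/
def HORP : Prop := ForS fun n K _ _ => ∀ (Λ B β : BD K) (m : ℝ), Smp Λ → Big Λ → Smp B →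
  Dsc Λ B → ¬ Big B → Dsc Λ β → Big (β + m • B) → ∃ P, Hor (fld B) P ∧ On n Λ P ∧ 0 < β P

/-- **VERT**: a divisor all of whose components are vertical does not meet horizontal places of a
prime divisor `T`; here `V (res T B)` is the image of `T` in the base -/
def VERT : Prop := ForS fun n K _ _ => ∀ (Λ B β : BD K) (T : Pl K) (Q : Pl T.κ), Smp Λ → Big Λ →
  Smp B → Dsc Λ B → Dsc Λ β → 0 ≤ β → (∀ P, On n Λ P → 0 < β P → ¬ CLe B T P) →
  Hor (fld (res T B)) Q → β T = 0 ∧ res T β Q = 0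

/-- **FOLH**: a horizontal place of an lc place `T` is followed by a place whose centre on the base
contains the centre of `T` -/
def FOLH : Prop := ForS fun n K _ _ => ∀ (B Γ : BD K) (T : Pl K) (Q : Pl T.κ), Smp B →
  Γ ∈ Car K → dsc (n + 1) Γ T = -1 → Hor (fld (res T B)) Q →
  ∃ R, R ≠ T ∧ CLe B T R ∧ dsc n (adj n T Γ) Q = dsc (n + 1) Γ R

/-- **ADJ**: the coefficients of the different of a generalised pair `(Γ, M)` on `V L`; the
components of the boundary, the canonical divisor and the trace of `M` are `ℝ`-Cartier -/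
def ADJ : Prop := ∀ (n p : ℕ) (I : Set ℝ) (δ γ : ℝ) (K : Type) [Field K] [Algebra ℂ K],
  FF K (n + 2) → ∀ (L Γ M κ M' : BD K) (T : Pl K) (U : Finset (Pl K)) (h : Pl K → BD K),
  0 < p → 0 ≤ δ → Smp L → Big L → On (n + 1) L T → T ∈ U →
  (∀ R ∈ U, Hull (n + 1) L R.δ (h R)) → Hull (n + 1) L (cn K (n + 2)) κ → Hull (n + 1) L M M' →
  Nef M → (p : ℝ) • M ∈ CarZ K → Dsc L (Γ + M) →
  (∀ P, On (n + 1) L P → P ∉ U → dsc (n + 2) Γ P = 0) → dsc (n + 2) Γ T = -1 →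
  ∀ Q, On n (res T L) Q → -1 ≤ dsc (n + 1) (adj (n + 1) T Γ) Q →
    (∀ R ∈ U, R ≠ T → res T (h R) Q ≠ 0 → Co I δ (dsc (n + 2) Γ R + 1)) →
    Co (Dv I p) δ (dsc (n + 1) (adj (n + 1) T Γ) Q + 1) ∧
    (γ ≤ 1 / 2 → (∀ s ∈ Cs I p, s < γ → s = 0) → δ < γ → ∀ R ∈ U, R ≠ T → res T (h R) Q ≠ 0 →
      -1 < dsc (n + 2) Γ R → dsc (n + 2) Γ R + 1 ≤ δ →
      -1 < dsc (n + 1) (adj (n + 1) T Γ) Q ∧ dsc (n + 1) (adj (n + 1) T Γ) Q + 1 ≤ δ)

end Vale.Agent.P283B.Ga
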